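import Vale.Agent.P275BW.Map
import Vale.Agent.P275RG.Proj

/-!
# P275, bundles over the Betti varieties and the maps between them
-/

open scoped Manifold ContDiff
open Set Filter Topology Function Matrix Module Sum
open P275BC (Ix mu UT)
open P275QV Vale.Agent.P275OM
open Vale.Agent.P275Z hiding mu
open Vale.Agent.P272.K (Cm)
open Vale.Agent.P281Z Vale.Agent.P275RG
open Vale.Agent.P275ST (dimR)
open Vale.Agent.P275XB (Ok dimZ)
open Vale.Agent.P275B (Vr ap bap pt_iff cj_ap)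

set_option linter.unusedSectionVars false

noncomputable section

namespace Vale.Agent.P275BW

variable {n g k k' D D' a a' : ℕ} {d : ℤ} {J J' : Type} [Fintype J] [Fintype J']
  {H : Subalgebra ℂ (Mx n)} {m : J → Fin n → ℤ} {e : J → ℤ} {T : Set (KB n J → ℂ)}
  {m' : J' → Fin n → ℤ} {e' : J' → ℤ} {T' : Set (KB n J' → ℂ)}

theorem ch_one (m : Fin n → ℤ) : ch m 1 = 1 := by simp [ch]

theorem ch_zero (h : Mx n) : ch 0 h = 1 := by simp [ch]

theorem rb_equiv {q : Submodule ℂ (Mx n)} (hH : H ≤ bor n) :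
    Equivalence (RB (g := g) (d := d) (q := q) H m e) := by
  refine ⟨fun z => ⟨1, one_mem _, by simp, 1, one_ne_zero, by simp, fun _ => by simp,
    fun j => by simp [ch_one]⟩, fun ⟨h, a, b, t, c, k1, k2, k3⟩ => ⟨h⁻¹, P275MB.inv_mem_alg a b,
      det_inv_ne b, t⁻¹, inv_ne_zero c, by simp [k1, Matrix.mul_assoc, b],
      P275RL.cj_symm k2 b, fun j => ?_⟩,
    fun ⟨h, a, b, t, c, k1, k2, k3⟩ ⟨h', a', b', t', c', l1, l2, l3⟩ => ⟨h * h', mul_mem a a',
      by rw [det_mul]; exact mul_ne_zero b b', t * t', mul_ne_zero c c',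
      by simp only [l1, k1, Matrix.mul_inv_rev, Matrix.mul_assoc], P275RL.cj_trans k2 l2,
      fun j => ?_⟩⟩
  · have := ch_mul (m j) (ut_inv (mem_bor.1 (hH a)) b) (mem_bor.1 (hH a))
    rw [nonsing_inv_mul _ b.isUnit, ch_one] at this
    rw [k3, _root_.inv_zpow, mul_left_comm (ch _ _), inv_mul_cancel_left₀ (zpow_ne_zero _ c),
      ← mul_assoc, ← this, one_mul]
  · rw [l3, k3, ch_mul _ (mem_bor.1 (hH a)) (mem_bor.1 (hH a')), mul_zpow]
    ring

theorem ptB_iff (hH : H ≤ bor n) {z z' : EB g k d T} :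
    ptB H m e z = ptB H m e z' ↔ RB H m e z.1 z'.1 :=
  Quot.eq.trans (((rb_equiv hH).comap Subtype.val).eqvGen_iff)

theorem ptB_onto : Surjective (ptB H m e : EB g k d T → _) := Quot.mk_surjective

/-- the change of the marking -/
def auB (t : Aut g n) : QB g k d H m e T → QB g k d H m e T :=
  Quot.map (fun z => ⟨(bap t z.1.1, z.1.2), z.2⟩) fun _ _ ⟨h, a, b, s, c, k1, k2, k3⟩ =>
    ⟨h, a, b, s, c, k1, cj_ap t b k2, k3⟩

/-- the projection -/
def prB (hH : H ≤ bor n) : QB g k d H m e T → Bet g d (tauN H hH k) :=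
  Quot.map (fun z => z.1.1) fun _ _ ⟨h, a, b, _, _, k1, k2, _⟩ => ⟨h, a, b, k1, k2⟩

theorem prB_auB (hH : H ≤ bor n) (t : Aut g n) (x : QB g k d H m e T) :
    prB hH (auB t x) = P275B.map _ t (prB hH x) := by
  obtain ⟨z, rfl⟩ := ptB_onto x
  rfl

/-- varieties of bundles -/
abbrev BB (g k : ℕ) (d : ℤ) (H : Subalgebra ℂ (Mx n)) (m : J → Fin n → ℤ) (e : J → ℤ)
    (T : Set (KB n J → ℂ)) (a D : ℕ) : Type 1 :=
  BV a D (fun z : EB g k d T => epB z.1) (ptB H m e)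

/-- varieties of Betti spaces -/
abbrev BN (g k : ℕ) (d : ℤ) (hH : H ≤ bor n) (a D : ℕ) : Type 1 :=
  BV a D epN (BFr.pt (g := g) (d := d) (tauN H hH k))

variable {hH : H ≤ bor n} (X : BB g k d H m e T a D)

theorem BV.rgB : RgB (RcS X.vrE) fun z : EB g k d T => z.1.1 :=
  rgB_of (v := fun z : EB g k d T => z.1.2) X.crd

theorem BV.fib (j : J) : (fun z : EB g k d T => z.1.2 j) ∈ RcS X.vrE := X.crd (inl (inr j))

theorem alg_auB (t : Aut g n) : Alg X.vr.cp X.vr.cp (auB t) :=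
  X.map X (g := fun z => ⟨(bap t z.1.1, z.1.2), z.2⟩) ((X.rgB.bap t).epB X.fib) fun _ => rfl

theorem alg_prB (Y : BN g k d hH a' D') : Alg X.vr.cp Y.vr.cp (prB hH) :=
  X.map Y X.rgB.epN fun _ => rfl

/-! ### inclusions -/

/-- the conditions for an inclusion -/
structure Inc (g : ℕ) (d : ℤ) (hk : nk n k ≤ nk n k') (ι : J ↪ J') (m : J → Fin n → ℤ) (e : J → ℤ)
    (T : Set (KB n J → ℂ)) (m' : J' → Fin n → ℤ) (e' : J' → ℤ) (T' : Set (KB n J' → ℂ)) :
    Prop where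
  hm : ∀ j, m' (ι j) = m j
  he : ∀ j, e' (ι j) = e j
  hT : ∀ (p : BFr g d (nk n k)) w, pa (p, w) ∈ T ↔ pa (inF hk p, extend ι w 0) ∈ T'

namespace Inc
variable {hk : nk n k ≤ nk n k'} {ι : J ↪ J'} (I : Inc g d hk ι m e T m' e' T')

/-- the inclusion of framed objects -/
def fr (z : EB g k d T) : EB g k' d T' := ⟨(inF hk z.1.1, extend ι z.1.2 0), (I.hT _ _).1 z.2⟩

theorem rb {z z' : EB g k d T} : RB H m' e' (I.fr z).1 (I.fr z').1 ↔ RB H m e z.1 z'.1 := by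
  refine exists_congr fun h => and_congr_right fun _ => and_congr_right fun _ => exists_congr
    fun t => and_congr_right fun _ => and_congr_right fun _ => and_congr_right fun _ =>
      ⟨fun k j => ?_, fun k j => ?_⟩
  · simpa only [fr, ι.injective.extend_apply, I.hm, I.he] using k (ι j)
  · by_cases l : ∃ i, ι i = j
    · obtain ⟨j, rfl⟩ := l
      simpa only [fr, ι.injective.extend_apply, I.hm, I.he] using k j
    · simp [fr, extend_apply' _ _ _ l]

/-- the inclusion -/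
def map (H : Subalgebra ℂ (Mx n)) : QB g k d H m e T → QB g k' d H m' e' T' :=
  Quot.map I.fr fun _ _ => I.rb.2

theorem map_auB (t : Aut g n) (x : QB g k d H m e T) : I.map H (auB t x) = auB t (I.map H x) := by
  obtain ⟨z, rfl⟩ := ptB_onto x
  rfl

theorem prB_map (hH : H ≤ bor n) (x : QB g k d H m e T) :
    prB hH (I.map H x) = tyB (τ := tauN H hH k) (τ' := tauN H hH k') le_rfl hk (prB hH x) := by
  obtain ⟨z, rfl⟩ := ptB_onto x
  rfl

theorem mem_fr {z : EB g k' d T'} :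
    z ∈ range I.fr ↔ z.1.1.1.1 ∈ nk n k ∧ ∀ j, (¬ ∃ i, ι i = j) → z.1.2 j = 0 := by
  refine ⟨?_, fun ⟨h1, h2⟩ => ?_⟩
  · rintro ⟨z, rfl⟩
    exact ⟨z.1.1.2.1, fun j l => extend_apply' _ _ _ l⟩
  have : extend ι (z.1.2 ∘ ι) 0 = z.1.2 := funext fun j => by
    by_cases l : ∃ i, ι i = j
    · obtain ⟨j, rfl⟩ := l
      exact ι.injective.extend_apply _ _ _
    · rw [extend_apply' _ _ _ l, h2 j l, Pi.zero_apply]
  exact ⟨⟨(⟨_, h1, z.1.1.2.2⟩, z.1.2 ∘ ι), (I.hT _ _).2 (this.symm ▸ z.2)⟩,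
    Subtype.ext (Prod.ext rfl this)⟩

theorem mem_range (hH : H ≤ bor n) {z : EB g k' d T'} : ptB H m' e' z ∈ range (I.map H) ↔
    z.1.1.1.1 ∈ nk n k ∧ ∀ j, (¬ ∃ i, ι i = j) → z.1.2 j = 0 := by
  refine ⟨fun ⟨x, l⟩ => ?_, fun h => let ⟨z', l⟩ := I.mem_fr.2 h; ⟨ptB H m e z', l ▸ rfl⟩⟩
  obtain ⟨y, rfl⟩ := ptB_onto x
  obtain ⟨h, a, b, t, c, k1, -, k3⟩ := (ptB_iff hH).1 l
  exact ⟨k1 ▸ mul_mem_nk (inv_mem_bor (hH a) b) (hH a) y.1.1.2.1, fun j l => by
    simp [k3, fr, extend_apply' _ _ _ l]⟩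

theorem inj (hH : H ≤ bor n) : Injective (I.map H) :=
  Quot.ind fun _ => Quot.ind fun _ l => Quot.sound (I.rb.1 ((ptB_iff hH).1 l))

theorem crd (i) : (fun z => epB (I.fr z).1 i) ∈ RcS X.vrE :=
  (X.rgB.inF hk).epB (fun j => by
    by_cases l : ∃ i, ι i = j
    · obtain ⟨j, rfl⟩ := l
      simp only [ι.injective.extend_apply]
      exact X.fib j
    · simpa only [extend_apply' _ _ _ l] using s_const _ _) i

theorem alg (X' : BB g k' d H m' e' T' a' D') : Alg X.vr.cp X'.vr.cp (I.map H) :=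
  X.map X' (I.crd X) fun _ => rfl

/-- the inclusions are closed embeddings -/
theorem emb (hH : H ≤ bor n) (X' : BB g k' d H m' e' T' a' D') :
    Emb (X := X.vr.X) (Y := X'.vr.X) D D' (I.map H) (range (I.map H)) ∧
      IsClosedEmbedding (I.map H) := by
  have hs := fun z x l => I.mem_fr.2 ((I.mem_range hH (z := z)).1 ⟨x, Eq.symm l⟩)
  have h0 : ∀ z i, epB (I.fr z).1 (Sum.map (Sum.map id ι) id i) = epB z.1 i := fun z i => by
    rcases i with (i | i) | i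
    exacts [rfl, ι.injective.extend_apply _ _ _, rfl]
  have h1 := (X'.toE (I.crd X)).cont
  have h2 := (epB_emb (g := g) (d := d) (q := nk n k') (J := J')).continuous
  refine ⟨⟨(I.alg X X').hol, I.inj hH, X.imm X' (I.crd X) h0 (fun _ => rfl) (I.inj hH) hs, rfl⟩,
    cemb_quot X.quo X'.quo ⟨.of_comp (g := fun z i => epB z.1 (Sum.map (Sum.map id ι) id i)) h1
      (continuous_pi fun _ => (continuous_apply _).comp (h2.comp continuous_subtype_val))
      (by simpa only [comp_def, h0] using epB_emb.comp .subtypeVal), ?_⟩ (fun _ => rfl)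
      (I.inj hH) hs⟩
  rw [show range I.fr = (fun z => z.1.1.1.1) ⁻¹' (nk n k : Set (Mx n)) ∩ ⋂ j,
    ⋂ _ : ¬ ∃ i, ι i = j, {z | z.1.2 j = 0} from Set.ext fun _ => I.mem_fr.trans (by simp)]
  have h3 : Continuous fun z : EB g k' d T' => z.1 := continuous_subtype_val
  exact ((nk n k).closed_of_finiteDimensional.preimage (continuous_subtype_val.comp
    h3.fst).fst).inter (isClosed_iInter fun j => isClosed_iInter fun _ =>
      isClosed_eq ((continuous_apply j).comp h3.snd) continuous_const)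

end Inc

/-! ### sections -/

section sec
variable [DecidableEq J] (hH) {j : J} (he : e j = 1)
  (hT : ∀ p : BFr g d (nk n k), pa (p, Pi.single j 1) ∈ T)

/-- the section given by the coordinate `j` -/
def scB : Bet g d (tauN H hH k) → QB g k d H m e T :=
  Quot.map (fun p => ⟨(p, Pi.single j 1), hT p⟩) fun _ _ ⟨h, a, b, k1, k2⟩ =>
    have := ch_ne (m j) (mem_bor.1 (hH a)) b
    ⟨h, a, b, _, inv_ne_zero this, k1, k2, fun i => by
      by_cases l : i = j <;> simp [l, he, this]⟩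

theorem prB_scB (y) : prB hH (scB (m := m) hH he hT y) = y := by
  obtain ⟨y, rfl⟩ := P275B.pt_onto y
  rfl

theorem scB_map (t : Aut g n) (y) :
    scB (m := m) hH he hT (P275B.map _ t y) = auB t (scB hH he hT y) := by
  obtain ⟨y, rfl⟩ := P275B.pt_onto y
  rfl

theorem mem_scB {z : EB g k d T} : ptB H m e z ∈ range (scB hH he hT) ↔
    z.1.2 j ≠ 0 ∧ ∀ i ≠ j, z.1.2 i = 0 := by
  refine ⟨fun ⟨y, l⟩ => ?_, fun ⟨h1, h2⟩ => ⟨z.1.1.pt _, (ptB_iff hH).2 ⟨1, one_mem _, by simp,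
    _, h1, by simp, fun _ => by simp, fun i => ?_⟩⟩⟩
  · obtain ⟨y, rfl⟩ := P275B.pt_onto y
    obtain ⟨h, a, b, t, c, -, -, k3⟩ := (ptB_iff hH).1 l
    exact ⟨by simp [k3, he, c, ch_ne (m j) (mem_bor.1 (hH a)) b], fun i l => by simp [k3, l]⟩
  · by_cases l : i = j
    · simp [l, he, ch_one]
    · simp [l, h2 i l]

variable (Y : BN g k d hH a' D')

theorem alg_scB : Alg Y.vr.cp X.vr.cp (scB hH he hT) :=
  Y.map X (g := fun p => ⟨(p, Pi.single j 1), hT p⟩) (Y.rgN.epB fun _ => s_const _ _) fun _ => rfl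

theorem emb_scB : Emb (X := Y.vr.X) (Y := X.vr.X) D' D (scB hH he hT) (range (scB hH he hT)) ∧
    IsClosedEmbedding (scB (m := m) hH he hT) :=
  emb_left (M := Y.vr) (M' := X.vr) (alg_scB hH X he hT Y).hol (alg_prB X Y).hol (prB_scB hH he hT)

end sec

/-! ### projective bundles -/

variable (n J) in
/-- the parameters with nonzero fibre coordinates -/
def T0 : Set (KB n J → ℂ) := {p | ∃ j, p (inr j) ≠ 0}

theorem mem_T0 {q : Submodule ℂ (Mx n)} {z : BFr g d q × (J → ℂ)} : pa z ∈ T0 n J ↔ z.2 ≠ 0 :=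
  ne_iff.symm

theorem lz_T0 : LZ (T0 n J) := by
  simpa [T0] using LZ.univ.ex_ne fun j : J => P275BC.Reg.coord (inr j)

theorem open_T0 : IsOpen (T0 n J) := by
  rw [T0, ofPred_exists]
  exact isOpen_iUnion fun j => isOpen_ne_fun (continuous_apply _) continuous_const

theorem par_open {p : KB n J → ℂ} (hT : IsOpen T) (hp : p ∈ SB k T) :
    Par (finrank ℂ (nkJ n k J)) (SB k T) p :=
  (par_sub _ hp.1).congr (Eventually.mono (hT.mem_nhds hp.2) fun _ h => (and_iff_left h).symm)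

theorem inv_T0 (hH : H ≤ bor n) : InvT k H m e (T0 n J) := fun _ a b _ c _ ⟨_, j, l⟩ _ _ k =>
  ⟨j, k j ▸ mul_ne_zero (zpow_ne_zero _ c) (mul_ne_zero (ch_ne _ (mem_bor.1 (hH a)) b) l)⟩

variable (g k d m) in
/-- the projective bundle of a sum of line bundles -/
abbrev PB : Type := QB g k d (bor n) m 1 (T0 n J)

theorem lift_prB (x : QB g k d H m 1 (T0 n J)) (p : BFr g d (nk n k)) (l : prB hH x = p.pt _) :
    ∃ v, ‖v‖ = 1 ∧ ∃ h, x = ptB H m 1 ⟨(p, v), h⟩ := by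
  obtain ⟨z, rfl⟩ := ptB_onto x
  obtain ⟨h, a, b, k1, k2⟩ := pt_iff.1 l
  have h1 : (fun j => ch (m j) h * z.1.2 j) ≠ 0 :=
    let ⟨j, l⟩ := z.2
    ne_iff.2 ⟨j, mul_ne_zero (ch_ne _ (mem_bor.1 (hH a)) b) l⟩
  have h2 := norm_smul_inv_norm (𝕜 := ℂ) h1
  refine ⟨_, h2, mem_T0.2 (norm_ne_zero_iff.1 (h2 ▸ one_ne_zero)), (ptB_iff hH).2
    ⟨h, a, b, _, inv_ne_zero (RCLike.ofReal_ne_zero.2 (norm_ne_zero_iff.2 h1)), k1, k2,
      fun j => by simp⟩⟩

/-- projective bundles are proper -/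
theorem proper_prB (Y : BN g k d hH a' D') :
    IsProperMap (prB hH : QB g k d H m 1 (T0 n J) → _) :=
  proper_sec (K := Metric.sphere (0 : J → ℂ) 1) (π' := BFr.pt _)
    (continuous_quot_lift _ (continuous_quot_mk.comp (continuous_fst.comp continuous_subtype_val)))
    (Φ := fun z => ptB H m 1 ⟨(z.1, z.2), mem_T0.2 (ne_zero_of_mem_unit_sphere z.2)⟩)
    (continuous_quot_mk.comp (Continuous.subtype_mk (by fun_prop) _)) (fun _ => rfl)
    (fun x p l => let ⟨v, a, _, b⟩ := lift_prB x p l; ⟨⟨v, mem_sphere_zero_iff_norm.2 a⟩, b⟩) Y.csec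

section prod
variable {N : ℕ} (S : PS N) {χ : Fin n → ℤ}

/-- the map to the projective space -/
def kP (hH : H ≤ bor n) : QB g k d H (fun _ : Fin (N + 1) => χ) 1 (T0 n _) → S.P.X :=
  Quot.lift (fun z => S.pt z.1.2) fun z z' ⟨h, a, b, t, c, _, _, k⟩ => by
    rw [show z'.1.2 = (t * ch χ h) • z.1.2 from funext fun j => by simp [k, mul_assoc],
      S.pt_smul (mul_ne_zero c (ch_ne _ (mem_bor.1 (hH a)) b)) (mem_T0.1 z.2)]

/-- the projective space as a variety -/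
def vP : Vr N := { X := S.P.X, cp := cP S }

/-- the map from the product -/
def jP (hH : H ≤ bor n) (y : Bet g d (tauN H hH k) × S.P.X) :
    QB g k d H (fun _ : Fin (N + 1) => χ) 1 (T0 n _) :=
  ptB _ _ _ ⟨((P275B.pt_onto y.1).choose, (S.surj y.2).choose), mem_T0.2 (S.surj y.2).choose_spec.1⟩

theorem kP_inj {x x' : QB g k d H (fun _ : Fin (N + 1) => χ) 1 (T0 n _)} (h1 : prB hH x = prB hH x')
    (h2 : kP S hH x = kP S hH x') : x = x' := by
  obtain ⟨z, rfl⟩ := ptB_onto x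
  obtain ⟨z', rfl⟩ := ptB_onto x'
  obtain ⟨h, a, b, k1, k2⟩ := pt_iff.1 h1
  obtain ⟨c, k3⟩ := (S.pt_eq_iff (mem_T0.1 z'.2) (mem_T0.1 z.2)).1 h2.symm
  have := ch_ne χ (mem_bor.1 (hH a)) b
  exact (ptB_iff hH).2 ⟨h, a, b, c / ch χ h, div_ne_zero (fun l => mem_T0.1 z'.2 (by simp [k3, l]))
    this, k1, k2, fun j => by simp [k3]; field_simp⟩

theorem prB_jP (y) : prB hH (jP (g := g) (d := d) (k := k) (χ := χ) S hH y) = y.1 :=
  (P275B.pt_onto y.1).choose_spec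

theorem kP_jP (y) : kP S hH (jP (g := g) (d := d) (k := k) (χ := χ) S hH y) = y.2 :=
  (S.surj y.2).choose_spec.2

theorem jP_pt (z : EB g k d (T0 n (Fin (N + 1)))) :
    jP S hH (z.1.1.pt _, S.pt z.1.2) = ptB H (fun _ => χ) 1 z :=
  kP_inj S (prB_jP S _) (kP_jP S _)

theorem jP_map (t : Aut g n) (y : Bet g d (tauN H hH k) × S.P.X) :
    jP (χ := χ) S hH (P275B.map _ t y.1, y.2) = auB t (jP S hH y) :=
  kP_inj S (by rw [prB_auB, prB_jP, prB_jP]) ((kP_jP S _).trans (kP_jP (χ := χ) S y).symm)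

variable (X : BB g k d H (fun _ : Fin (N + 1) => χ) 1 (T0 n _) a (D' + N)) (Y : BN g k d hH a' D')

theorem alg_kP : Alg X.vr.cp (vP S).cp (kP S hH) :=
  X.ofQ (M := vP S) (alg_pt (c := X.vrE.cp) X.fib fun z => mem_T0.1 z.2)

theorem alg_jP : Alg (Y.vr.prod (vP S)).cp X.vr.cp (jP S hH) := by
  refine Alg.inv (c := X.vr.cp) (d := (Y.vr.prod (vP S)).cp) ((alg_prB X Y).pair (alg_kP (hH := hH) S X))
    (fun y => ?_) (fun x => kP_inj S (prB_jP S _) (kP_jP S _))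
    fun y => Prod.ext (prB_jP (χ := χ) S y) (kP_jP (χ := χ) S y)
  classical
  obtain ⟨p, hp⟩ := P275B.pt_onto y.1
  obtain ⟨σ, -, k1, k2⟩ := Y.sec p
  obtain ⟨h, l⟩ := S.lb.cover y.2
  rw [hp] at k1 k2
  have h1 : HolA (X := (Y.vr.prod (vP S)).X) (Y := Y.vr.X) (D' + N) D' Prod.fst y :=
    (Alg.fst (c := Y.vr.cp) (c' := (vP S).cp)).hol.at y
  have h2 : HolA (X := (Y.vr.prod (vP S)).X) (D' + N) N Prod.snd y :=
    (Alg.snd (c := Y.vr.cp) (c' := (vP S).cp)).hol.at y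
  have h3 := h2.cont.eventually ((S.lb.isOpen h).eventually_mem l)
  let f : (Y.vr.prod (vP S)).X → X.vrE.X := fun u => ⟨(σ u.1, if S.x h u.2 = 0 then 1 else
    S.x h u.2), mem_T0.2 (by split_ifs with l; exacts [one_ne_zero, l])⟩
  have h4 : ∀ u : (Y.vr.prod (vP S)).X, u.2 ∈ S.H.U h → (f u).1 = (σ u.1, S.x h u.2) :=
    fun u l => Prod.ext rfl (if_neg (S.xnz _ _ l))
  refine ((X.qv'.hol.at _).cmp (X.av'.holA (g := f) (.pi fun i => P277Z.Hol.congr
    (a := fun u => epB (σ u.1, S.x h u.2) i) ?_ (h3.mono fun u l => congrArg (epB · i) (h4 u l).symm)))).cng ?_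
  · rcases i with (i | i) | i
    exacts [(k1.cmp h1).hol ((Y.rgN.res _ _).hol _), h2.hol (S.xhol l i),
      (k1.cmp h1).hol ((Y.rgN.tup _ _ _).hol _)]
  · filter_upwards [h3, h1.cont.eventually k2] with u l1 l2
    rw [← jP_pt S (hH := hH), h4 u l1, S.pt_x' l1]
    exact congrArg (fun v => jP S hH (v, u.2)) l2

end prod

variable [h : Ok g n d]

variable (g d) in
/-- the projective bundle as a variety -/
def bP (hm : ∀ j, ∑ a, m j a = 0) (hk : k ≤ nr n)
    (hD : D + k + 1 = 2 * dimR g n + 2 * nr n + Fintype.card J) :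
    BB g k d (bor n) m 1 (T0 n J) (finrank ℂ (nkJ n k J) + dimZ g n) D :=
  (bvB1 (adm_bor h.hn) hm lz_T0 (fun _ => par_open open_T0) (inv_T0 le_rfl)
    (fun _ ⟨_, j, l⟩ => ⟨j, rfl, l⟩) (by
      have := dimZ_eq (h := h); have := Nat.pos_of_ne_zero h.hn
      have := finrank_nkJ (J := J) hk; omega)).1.some

end Vale.Agent.P275BW
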