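import Vale.Agent.P275BW.Fam

/-!
# P275, maps between quotient varieties
-/

open scoped Manifold ContDiff
open Set Filter Topology Function Matrix
open Vale.Agent.P272.K (Cm)
open Vale.Agent.P277Z (Hol)
open Vale.Agent.P281Z Vale.Agent.P275RG
open Vale.Agent.P275B (Vr)

set_option linter.unusedSectionVars false

noncomputable section

namespace Vale.Agent.P275BW

/-- regular functions on a variety -/
def RcS {m : ℕ} (M : Vr m) : Subalgebra ℂ (M.X → ℂ) where
  carrier := {f | Reg M.cp f}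
  mul_mem' := fun h k => Reg.mul h k
  add_mem' := fun h k => Reg.add h k
  algebraMap_mem' := fun c => Reg.const _ c

section top
variable {E Q E' Q' : Type} [TopologicalSpace E] [TopologicalSpace Q] [TopologicalSpace E']
  [TopologicalSpace Q'] {π : E → Q} {π' : E' → Q'} {g : E → E'} {G : Q → Q'}

/-- a saturated closed embedding induces a closed embedding -/
theorem cemb_quot (hq : IsQuotientMap π) (hq' : IsQuotientMap π') (hg : IsClosedEmbedding g)
    (e : ∀ a, G (π a) = π' (g a)) (hi : Injective G) (hs : ∀ a' q, π' a' = G q → a' ∈ range g) :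
    IsClosedEmbedding G := by
  refine .of_continuous_injective_isClosedMap (hq.continuous_iff.2
    ((hq'.continuous.comp hg.continuous).congr fun a => (e a).symm)) hi fun Z hZ =>
    hq'.isClosed_preimage.1 ?_
  convert hg.isClosedMap _ (hZ.preimage hq.continuous) using 1
  refine Subset.antisymm (fun a' ⟨q, h1, h2⟩ => ?_) ?_
  · obtain ⟨a, rfl⟩ := hs a' q h2.symm
    exact ⟨a, show π a ∈ Z from hi ((e a).trans h2.symm) ▸ h1, rfl⟩
  · rintro _ ⟨a, h, rfl⟩
    exact ⟨_, h, e a⟩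

/-- maps with compact fibre coordinates over local sections are proper -/
theorem proper_sec {K : Type} [TopologicalSpace K] [CompactSpace K] (hG : Continuous G)
    {Φ : E' × K → Q} (hΦ : Continuous Φ) (h1 : ∀ z, G (Φ z) = π' z.1)
    (h2 : ∀ x a, G x = π' a → ∃ w, x = Φ (a, w))
    (hs : ∀ y, ∃ σ : Q' → E', ContinuousAt σ y ∧ ∀ᶠ z in 𝓝 y, π' (σ z) = z) : IsProperMap G := by
  refine isProperMap_iff_ultrafilter.2 ⟨hG, fun U y hU => ?_⟩
  obtain ⟨σ, k1, k2⟩ := hs y
  have k3 := hU.eventually k2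
  obtain ⟨x0, k4⟩ := k3.exists
  have := (h2 _ _ k4.symm).nonempty
  choose! w hw using fun x => h2 x (σ (G x))
  obtain ⟨w0, -, k5⟩ := isCompact_univ.ultrafilter_le_nhds (U.map w) (by simp)
  refine ⟨Φ (σ y, w0), (h1 _).trans k2.self_of_nhds, ?_⟩
  exact ((hΦ.tendsto _).comp ((k1.tendsto.comp hU).prodMk_nhds k5)).congr'
    (k3.mono fun x hx => (hw x hx.symm).symm)

end top

variable {ι κ E Q E' Q' : Type} [TopologicalSpace E] [TopologicalSpace Q] [TopologicalSpace E']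
  [TopologicalSpace Q'] [Fintype ι] [Fintype κ] {m d m' d' k : ℕ}
  {ε : E → ι → ℂ} {π : E → Q} {ε' : E' → κ → ℂ} {π' : E' → Q'}

theorem imm_quot [ChartedSpace (Cm m) E] [IsManifold 𝓘(ℂ, Cm m) ω E] [ChartedSpace (Cm d) Q]
    [IsManifold 𝓘(ℂ, Cm d) ω Q] [ChartedSpace (Cm m') E'] [IsManifold 𝓘(ℂ, Cm m') ω E']
    [ChartedSpace (Cm d') Q'] [IsManifold 𝓘(ℂ, Cm d') ω Q'] {c : Cp m E} {c' : Cp m' E'}
    {b : Cp d Q} {b' : Cp d' Q'} (A : AV m ε c) (A' : AV m' ε' c') (B : QV m d c b π)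
    (B' : QV m' d' c' b' π') {g : E → E'} {G : Q → Q'} (h1 : HolM m m' g) (h2 : HolM d d' G)
    {f : ι → κ} (e0 : ∀ a i, ε' (g a) (f i) = ε a i) (e : ∀ a, G (π a) = π' (g a))
    (hi : Injective G) (hs : ∀ a' q, π' a' = G q → a' ∈ range g) (q : Q) : Imm d d' G q := by
  obtain ⟨a, rfl⟩ := B.onto q
  have h3 : IsInducing g := .of_comp (g := fun b i => ε' b (f i)) h1.cont
    (continuous_pi fun i => (continuous_apply _).comp A'.ind.continuous)
    (by simpa only [comp_def, e0] using A.ind)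
  have h4 : Imm m m' g a := .of_comp (g := fun b k => ε' b (f ((Fintype.equivFin ι).symm k)))
    (holA_iff.2 fun _ => (A'.reg _).hol _) (h1.at a) (by simpa only [e0] using A.imm a)
  obtain ⟨σ, k1, k2, k3⟩ := (B'.sbm (g a)).sec (B'.hol.at _)
  obtain ⟨ρ, l1, l2, l3⟩ := h4.ret (h1.at a)
  rw [h3.nhds_eq_comap, eventually_comap] at l3
  rw [← e] at k1 k2 k3
  refine .of_comp (g := fun z => π (ρ (σ z))) ((B.hol.at _).cmp
    (HolA.cmp (k1.symm ▸ l2) k2)) (h2.at _) ((imm_id _).cng ?_)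
  filter_upwards [(h2.at _).cont.eventually k3,
    (k2.cmp (h2.at _)).cont.eventually (k1.symm ▸ l3)] with z n1 n2
  obtain ⟨b, hb⟩ := hs _ _ n1
  rw [← hb, n2 b hb]
  exact hi (by rw [e, hb, n1])

namespace BV
variable (X : BV m d ε π) (X' : BV m' d' ε' π') {M : Vr k}

/-- the variety of framed objects -/
def vrE : Vr m :=
  let _ := X.cE
  have := X.mE
  { X := E, t2 := X.pE.t2, sc := X.pE.sc, cp := X.pE }

theorem av' : AV (E := X.vrE.X) m ε X.vrE.cp := X.av

theorem qv' : QV (E := X.vrE.X) (Q := X.vr.X) m d X.vrE.cp X.vr.cp π := X.qv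

theorem crd (i : ι) : (fun a => ε a i) ∈ RcS X.vrE := X.av'.reg i

include X in
theorem quo : IsQuotientMap π := X.qv'.isQuotientMap

/-- maps to the framed objects -/
theorem toE {g : M.X → E} (h : ∀ i, (fun a => ε (g a) i) ∈ RcS M) : Alg M.cp X.vrE.cp g :=
  X.av'.alg h

/-- maps to the quotient -/
theorem toQ {g : M.X → E} (h : ∀ i, (fun a => ε (g a) i) ∈ RcS M) :
    Alg M.cp X.vr.cp fun a => π (g a) := X.qv'.alg.comp (X.toE h)

/-- maps from the quotient -/
theorem ofQ {G : Q → M.X} (h : Alg X.vrE.cp M.cp fun a => G (π a)) : Alg X.vr.cp M.cp G :=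
  X.qv'.alg_desc h

/-- invariant regular functions -/
theorem reg {t : Q → ℂ} (h : (fun a => t (π a)) ∈ RcS X.vrE) : t ∈ RcS X.vr := X.qv'.reg_desc h

/-- invariant closed subvarieties -/
theorem zc {Z : Set Q} {J : Type} [Finite J] {f : J → E → ℂ} (h : ∀ j, f j ∈ RcS X.vrE)
    (e : ∀ a, π a ∈ Z ↔ ∀ j, f j a = 0) : Zc X.vr.cp Z :=
  X.qv'.zc_desc (by
    convert Zc.iInter fun j => Reg.zc (h j) using 1
    exact Set.ext fun a => (e a).trans (mem_iInter (s := fun j => {x | f j x = 0})).symm)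

variable {g : E → E'} {G : Q → Q'}

/-- maps between the quotients -/
theorem map (h : ∀ i, (fun a => ε' (g a) i) ∈ RcS X.vrE) (e : ∀ a, G (π a) = π' (g a)) :
    Alg X.vr.cp X'.vr.cp G := X.ofQ (M := X'.vr) ((funext e).symm ▸ X'.toQ h)

/-- local holomorphic sections through every point -/
theorem sec (a : E) : ∃ σ : X.vr.X → X.vrE.X, σ (π a) = a ∧ HolA d m σ (π a) ∧
    ∀ᶠ z in 𝓝 (π a), π (σ z) = z := (X.qv'.sbm a).sec (X.qv'.hol.at a)

include X in
theorem csec (y : Q) : ∃ σ : Q → E, ContinuousAt σ y ∧ ∀ᶠ z in 𝓝 y, π (σ z) = z := by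
  obtain ⟨a, rfl⟩ := X.qv'.onto y
  obtain ⟨σ, -, h1, h2⟩ := X.sec a
  exact ⟨σ, h1.cont, h2⟩

/-- saturated embeddings induce embeddings -/
theorem imm (h : ∀ i, (fun a => ε' (g a) i) ∈ RcS X.vrE) {f : ι → κ}
    (e0 : ∀ a i, ε' (g a) (f i) = ε a i) (e : ∀ a, G (π a) = π' (g a)) (hi : Injective G)
    (hs : ∀ a' q, π' a' = G q → a' ∈ range g) (q : Q) :
    Imm (X := X.vr.X) (Y := X'.vr.X) d d' G q :=
  imm_quot X.av' X'.av' X.qv' X'.qv' (X'.toE h).hol (X.map X' h e).hol e0 e hi hs q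

end BV

/-- a map with a left inverse is a closed embedding -/
theorem emb_left {M : Vr m} {M' : Vr m'} {s : M.X → M'.X} {p : M'.X → M.X} (hs : HolM m m' s)
    (hp : HolM m' m p) (e : ∀ x, p (s x) = x) : Emb m m' s (range s) ∧ IsClosedEmbedding s :=
  ⟨⟨hs, LeftInverse.injective e, fun x => .of_comp (hp.at _) (hs.at x)
    ((imm_id x).cng (.of_forall fun z => (e z).symm)), rfl⟩,
    LeftInverse.isClosedEmbedding e hp.cont hs.cont⟩

end Vale.Agent.P275BW
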