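import Vale.Agent.P275BW.Inst
import Vale.Agent.P275BW.Gen
import Vale.Agent.P275GQ.Bx
import Vale.Agent.P275B.Coc

/-!
# P275, the Betti varieties and the maps between them
-/

open scoped Manifold ContDiff
open Set Filter Topology Function Matrix Module Sum
open P275BC (Ix mu UT)
open P275QV Vale.Agent.P275OM
open Vale.Agent.P275Z hiding mu
open Vale.Agent.P281Z Vale.Agent.P275RG
open Vale.Agent.P275ST (dimR)
open Vale.Agent.P275XB (Ok ix mu_ix dimZ)
open Vale.Agent.P275RH (cwd)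
open Vale.Agent.P275MO (Ty)
open Vale.Agent.P275B (Vr ap bap pt_iff cj_ap)

set_option linter.unusedSectionVars false

noncomputable section

namespace Vale.Agent.P275BW

variable {n g k k' w w' D D' : ℕ} {d : ℤ} {J J' : Type} [Fintype J] [Fintype J']
  {q q' : Submodule ℂ (Mx n)} {τ τ' : Ty n} {H H' : Subalgebra ℂ (Mx n)}

/-- the coordinates of a framed object -/
def epN (p : BFr g d q) : KB n Empty ⊕ Ix n g → ℂ := epB (p, Empty.elim)

theorem bvN [Ok g n d] (hH : Adm H w) (hk : k ≤ nr n) (hD : D + k + w = nr n + dimZ g n) :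
    Nonempty (BV (D + w) D (epN : BFr g d (nk n k) → _) (BFr.pt (tauN H hH.1 k))) := by
  obtain ⟨σ, h1, h0, h2, h3⟩ := hH.2
  have h4 := finrank_nkJ (J := Empty) hk
  have F := fdB (g := g) (d := d) (k := k) (T := univ) (m := Empty.elim) h1 LZ.univ
    (fun p hp => by simpa only [inter_univ] using par_sub _ hp.1) fun _ _ _ _ => trivial
  have h5 : IsEmbedding (epN : BFr g d (nk n k) → _) := epB_emb.comp (isEmbedding_prodMkLeft _)
  rw [show finrank ℂ (nkJ n k Empty) + dimZ g n = D + w by simp at h4; omega] at F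
  refine F.bv h5.isInducing h5.injective
    (Eq.trans (b := range fun z : EB g k d univ => epB z.1) (Subset.antisymm (range_subset_iff.2
      fun p => ⟨⟨(p, _), trivial⟩, rfl⟩) (range_subset_iff.2 fun z =>
        ⟨z.1.1, congrArg epB (Prod.ext rfl (Subsingleton.elim _ _))⟩)) range_epB)
    (h0 ▸ rfl) isQuotientMap_quot_mk fun p p' => pt_iff.trans (Iff.trans
      ⟨fun ⟨h, a, b, c⟩ => ⟨h, a, b, 1, one_ne_zero, c.1, c.2, fun j => j.elim⟩,
        fun ⟨h, a, b, _, _, c, e, _⟩ => ⟨h, a, b, c, e⟩⟩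
      ((rb_iff (z := (p, Empty.elim)) (z' := (p', Empty.elim)) (e := 0) h2 h3 fun j => j.elim).trans
        ⟨fun ⟨h, t, a, _, b⟩ => ⟨h, a, b.trans (funext fun i => ?_)⟩,
          fun ⟨h, a, b⟩ => ⟨h, 1, a, one_ne_zero, b.trans (sc_one _ _).symm⟩⟩))
  rcases i with (i | i) | i <;> simp [sc, wB, epN]

/-- the inclusion of framed objects -/
def inF (hq : q ≤ q') (p : BFr g d q) : BFr g d q' := ⟨p.1, hq p.2.1, p.2.2⟩

/-- the change of type -/
def tyB (hH : τ.H ≤ τ'.H) (hq : τ.q ≤ τ'.q) : Bet g d τ → Bet g d τ' :=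
  Quot.map (inF hq) fun _ _ ⟨h, a, b⟩ => ⟨h, hH a, b⟩

theorem tyB_map (hH : τ.H ≤ τ'.H) (hq : τ.q ≤ τ'.q) (t : Aut g n) (y : Bet g d τ) :
    tyB hH hq (P275B.map τ t y) = P275B.map τ' t (tyB hH hq y) := by
  obtain ⟨y, rfl⟩ := Quot.mk_surjective y
  rfl

theorem inF_cemb (hq : q ≤ q') : IsClosedEmbedding (inF hq : BFr g d q → BFr g d q') := by
  refine ⟨IsEmbedding.of_comp (continuous_subtype_val.subtype_mk _) continuous_subtype_val
    .subtypeVal, ?_⟩
  rw [show range (inF hq) = (fun p : BFr g d q' => p.1.1) ⁻¹' q from Subset.antisymm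
    (range_subset_iff.2 fun p => p.2.1) fun p h => ⟨⟨p.1, h, p.2.2⟩, rfl⟩]
  exact q.closed_of_finiteDimensional.preimage (continuous_fst.comp continuous_subtype_val)

/-- families of framed objects with entries in `S` -/
structure RgB {Y : Type} (S : Subalgebra ℂ (Y → ℂ)) (p : Y → BFr g d q) : Prop where
  res : MS S fun y => (p y).1.1
  tup : ∀ s, MS S fun y => ((p y).1.2 s).1

section RgB
variable {Y : Type} {S : Subalgebra ℂ (Y → ℂ)} {p : Y → BFr g d q}

theorem ms_wv {ρ : Y → Tup g n} (h : ∀ s, MS S fun y => (ρ y s).1)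
    (x : FreeGroup (Fin g × Bool)) : MS S fun y => wv (ρ y) x := by
  induction x using FreeGroup.induction_on with
  | C1 => simpa only [wv, map_one] using MS.const S _
  | of s => simpa only [wv, FreeGroup.lift_apply_of] using h s
  | inv_of s _ => simp only [wv, map_inv, FreeGroup.lift_apply_of]; exact (h s).adj
  | mul v w hv hw => simp only [wv, map_mul]; exact hv.mul hw

theorem RgB.bap (h : RgB S p) (t : Aut g n) : RgB S fun y => bap t (p y) :=
  ⟨h.res, fun _ => MS.smul (s_const S _) (ms_wv h.tup _)⟩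

theorem RgB.inF (h : RgB S p) (hq : q ≤ q') : RgB S fun y => inF hq (p y) := ⟨h.res, h.tup⟩

theorem RgB.epB (h : RgB S p) {v : Y → J → ℂ} (hv : ∀ j, (fun y => v y j) ∈ S) :
    ∀ i, (fun y => epB (p y, v y) i) ∈ S := by
  rintro ((i | i) | i)
  exacts [h.res _ _, hv i, h.tup _ _ _]

theorem RgB.epN (h : RgB S p) : ∀ i, (fun y => epN (p y) i) ∈ S := h.epB fun j => j.elim

theorem rgB_of {v : Y → J → ℂ} (h : ∀ i, (fun y => epB (p y, v y) i) ∈ S) : RgB S p :=
  ⟨fun a b => h (inl (inl (a, b))), fun s a b => h (inr (s.1, s.2, a, b))⟩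

end RgB

section N
variable {m m' : ℕ} (X : BV m D (epN : BFr g d τ.q → _) (BFr.pt τ))
  (X' : BV m' D' (epN : BFr g d τ'.q → _) (BFr.pt τ'))

theorem BV.rgN : RgB (RcS X.vrE) fun p : BFr g d τ.q => p := rgB_of X.crd

theorem alg_map (t : Aut g n) : Alg X.vr.cp X.vr.cp (P275B.map τ t) :=
  X.map X (X.rgN.bap t).epN fun _ => rfl

theorem alg_tyB (hH : τ.H ≤ τ'.H) (hq : τ.q ≤ τ'.q) : Alg X.vr.cp X'.vr.cp (tyB hH hq) :=
  X.map X' (X.rgN.inF hq).epN fun _ => rfl

theorem alg_fgt [Ok g n d] (hH : τ.H ≤ (tauX n).H) (hq : τ.q ≤ (tauX n).q) :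
    Alg X.vr.cp (vX g n d).cp (tyB hH hq) :=
  X.ofQ (M := vX g n d) (alg_toX (c := X.vrE.cp) (f := fun p => inF hq p) X.rgN.tup)

end N

theorem tyB_range (hH : H ≤ bor n) (hk : nk n k ≤ nk n k') (p : BFr g d (nk n k')) :
    p.pt (tauN H hH k') ∈ range (tyB (τ := tauN H hH k) (τ' := tauN H hH k') le_rfl hk) ↔
      p.1.1 ∈ nk n k := by
  refine ⟨fun ⟨y, e⟩ => ?_, fun h => ⟨BFr.pt _ ⟨p.1, h, p.2.2⟩, rfl⟩⟩
  obtain ⟨y, rfl⟩ := Quot.mk_surjective y
  obtain ⟨h, a, b, c, -⟩ := pt_iff.1 e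
  exact c ▸ mul_mem_nk (inv_mem_bor (hH a) b) (hH a) y.2.1

theorem tyB_inj (hH : H ≤ bor n) (hk : nk n k ≤ nk n k') :
    Injective (tyB (g := g) (d := d) (τ := tauN H hH k) (τ' := tauN H hH k') le_rfl hk) :=
  Quot.ind fun _ => Quot.ind fun _ e => Quot.sound ((pt_iff (τ := tauN H hH k')).1 e)

/-- the inclusions are closed embeddings -/
theorem tyB_emb (hH : H ≤ bor n) (hk : nk n k ≤ nk n k') {m m' : ℕ}
    (X : BV m D epN (BFr.pt (g := g) (d := d) (tauN H hH k)))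
    (X' : BV m' D' epN (BFr.pt (g := g) (d := d) (tauN H hH k'))) :
    Emb (X := X.vr.X) (Y := X'.vr.X) D D' (tyB le_rfl hk)
      (range (tyB (τ := tauN H hH k) le_rfl hk)) ∧
      IsClosedEmbedding (tyB (g := g) (d := d) (τ := tauN H hH k) (τ' := tauN H hH k')
        le_rfl hk) :=
  have hs := fun p y e => (⟨⟨_, (tyB_range hH hk p).1 ⟨y, Eq.symm e⟩, p.2.2⟩, rfl⟩ :
    p ∈ range (inF hk))
  ⟨⟨(alg_tyB X X' _ _).hol, tyB_inj hH hk, X.imm X' (X.rgN.inF hk).epN (f := id) (fun _ _ => rfl)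
    (fun _ => rfl) (tyB_inj hH hk) hs, rfl⟩,
    cemb_quot X.quo X'.quo (inF_cemb hk) (fun _ => rfl) (tyB_inj hH hk) hs⟩

theorem mem_nk_succ (j : Fin (nr n)) {R : Mx n} (h : R ∈ nk n j) :
    R ∈ nk n (j + 1) ↔ R (ra j) (rb j) = 0 :=
  ⟨fun e => e.2 j (Nat.lt_succ_self _), fun e => ⟨h.1, fun i l =>
    (Nat.lt_succ_iff_lt_or_eq.1 l).elim (h.2 i) fun l => Fin.ext l ▸ e⟩⟩

variable [h : Ok g n d]

include h in
theorem dimZ_eq : dimZ g n + 1 = 2 * dimR g n + 2 * nr n + n := by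
  have := two_nr n
  have := Nat.pos_of_ne_zero h.hn
  rw [dimZ, ← sq]
  omega

variable (g d) in
/-- the variety `Z_k` -/
def bZ (hk : k ≤ nr n) (hD : D + k = 2 * dimR g n + 2 * nr n) :
    BV (D + (nr n + (n - 1))) D epN (BFr.pt (g := g) (d := d) (tauZ n k)) :=
  (bvN (adm_bor h.hn) hk (by
    have := dimZ_eq (h := h); have := Nat.pos_of_ne_zero h.hn; omega)).some

variable (g d) in
/-- the principal torus bundle over `Z_k` -/
def bU (hk : k ≤ nr n) (hD : D + k + 1 = 2 * dimR g n + 2 * nr n + n) :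
    BV (D + nr n) D epN (BFr.pt (g := g) (d := d) (tauU n k)) :=
  (bvN (adm_uni h.hn) hk (by have := dimZ_eq (h := h); omega)).some

end Vale.Agent.P275BW
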