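import Vale.Agent.P275BW.Pb

/-!
# P275, the spaces `P (L ^ (N + 1) + 1)` and `W = {τ v = s u}`
-/

open scoped Manifold ContDiff
open Set Filter Topology Function Matrix Module Sum
open P275QV Vale.Agent.P275OM
open Vale.Agent.P275Z hiding mu
open Vale.Agent.P281Z Vale.Agent.P275RG
open Vale.Agent.P275ST (dimR)
open Vale.Agent.P275XB (Ok dimZ)
open Vale.Agent.P275B (Vr)

set_option linter.unusedSectionVars false

noncomputable section

namespace Vale.Agent.P275BW

variable {n g k N D : ℕ} {d : ℤ} {χ : Fin n → ℤ}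

/-- the weights of `L ^ (N + 1) + 1`; the coordinate `none` is the trivial one -/
def mP (χ : Fin n → ℤ) (N : ℕ) : Option (Fin (N + 1)) → Fin n → ℤ := fun j => j.elim 0 fun _ => χ

theorem sum_mP (h : ∑ a, χ a = 0) (N : ℕ) (j) : ∑ a, mP χ N j a = 0 := by
  rcases j with _ | j
  exacts [by simp [mP], h]

theorem ext_ne {J J' : Type} (ι : J ↪ J') {w : J → ℂ} : w ≠ 0 ↔ extend ι w 0 ≠ (0 : J' → ℂ) := by
  refine not_congr ⟨fun h => funext fun j => ?_, fun h => funext fun j =>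
    (ι.injective.extend_apply w 0 j).symm.trans (congrFun h _)⟩
  classical
  rw [h, extend_def]
  split_ifs <;> rfl

theorem inc_T0 {J J' : Type} [Fintype J] [Fintype J'] {k' : ℕ} (hk : nk n k ≤ nk n k') (ι : J ↪ J') {m : J → Fin n → ℤ}
    {m' : J' → Fin n → ℤ} (h : ∀ j, m' (ι j) = m j) :
    Inc g d hk ι m 1 (T0 n J) m' 1 (T0 n J') :=
  ⟨h, fun _ => rfl, fun p w => mem_T0.trans ((ext_ne ι).trans
    (mem_T0 (z := (inF hk p, extend ι w 0))).symm)⟩

/-- the divisor at infinity -/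
theorem inc_inf : Inc g d (le_refl (nk n k)) .some (fun _ => χ) 1 (T0 n _) (mP χ N) 1 (T0 n _) :=
  inc_T0 _ _ fun _ => rfl

/-- the first coordinate -/
theorem inc_fst : Inc g d (le_refl (nk n k)) (Embedding.optionMap ⟨fun _ => 0, fun _ _ _ =>
    Subsingleton.elim (α := Fin 1) _ _⟩) (mP χ 0) 1 (T0 n _) (mP χ N) 1 (T0 n _) :=
  inc_T0 _ _ fun j => by rcases j with _ | _ <;> rfl

theorem sgl_T0 {J : Type} [DecidableEq J] (j : J) (p : BFr g d (nk n k)) :
    pa (p, Pi.single j 1) ∈ T0 n J := ⟨j, by simp [pa]⟩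

/-- the weight of the root coordinate -/
def rtw (j : Fin (nr n)) : Fin n → ℤ := Pi.single (rb j) 1 - Pi.single (ra j) 1

theorem sum_rtw (j : Fin (nr n)) : ∑ a, rtw j a = 0 := by simp [rtw]

theorem ch_single (a : Fin n) (s : ℤ) (h : Mx n) : ch (Pi.single a s) h = h a a ^ s := by
  rw [ch, Finset.prod_eq_single a (fun b _ l => by simp [l]) (by simp), Pi.single_eq_same]

theorem ch_add (m m' : Fin n → ℤ) {h : Mx n} (a : h ∈ bor n) (b : h.det ≠ 0) :
    ch (m + m') h = ch m h * ch m' h := by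
  simp only [ch, Pi.add_apply, zpow_add₀ (UT.diag_ne (mem_bor.1 a) b _), Finset.prod_mul_distrib]

theorem root_conj (j : Fin (nr n)) {h R : Mx n} (a : h ∈ bor n) (b : h.det ≠ 0) (c : R ∈ nk n j) :
    (h⁻¹ * R * h) (ra j) (rb j) = ch (rtw j) h * R (ra j) (rb j) := by
  rw [root_mul (inv_mem_bor a b) a j c, rtw, sub_eq_add_neg, ← Pi.single_neg, ch_add _ _ a b,
    ch_single, ch_single, inv_diag (mem_bor.1 a) b, zpow_one, _root_.zpow_neg_one]
  ring

/-- the coordinates `τ = none`, `u = some none`, `v = some (some 0)` -/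
abbrev JW : Type := Option (Option (Fin 1))

/-- the weights -/
def mW (j : Fin (nr n)) : JW → Fin n → ℤ := fun i => i.elim 0 (mP (rtw j) 0)

/-- the weights of the scaling -/
def eW : JW → ℤ := fun i => i.elim 0 1

/-- the equation -/
def fW (j : Fin (nr n)) (p : KB n JW → ℂ) : ℂ :=
  p (inr none) * p (inr (some (some 0))) - p (inl (ra j, rb j)) * p (inr (some none))

/-- the parameters -/
def TW (j : Fin (nr n)) : Set (KB n JW → ℂ) := {p | fW j p = 0 ∧ ∃ i, p (inr (some i)) ≠ 0}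

theorem inc_W (j : Fin (nr n)) : Inc g d (nk_anti (Nat.le_succ j)) .some (mP (rtw j) 0) 1 (T0 n _)
    (mW j) eW (TW j) :=
  ⟨fun _ => rfl, fun _ => rfl, fun p w => by
    simp [T0, TW, fW, pa, inF, (Option.some_injective _).extend_apply,
      p.2.1.2 j (Nat.lt_succ_self _)]⟩

theorem sgl_TW (j : Fin (nr n)) (p : BFr g d (nk n j)) :
    pa (p, Pi.single (some (some 0)) 1) ∈ TW j := ⟨by simp [fW, pa], some 0, by simp [pa]⟩

theorem inv_TW (j : Fin (nr n)) : InvT j (bor n) (mW j) eW (TW j) := by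
  rintro h a b t c p ⟨h1, h2, i, h3⟩ p' h4 h5
  refine ⟨?_, i, h5 _ ▸ mul_ne_zero (zpow_ne_zero _ c) (mul_ne_zero (ch_ne _ (mem_bor.1 a) b) h3)⟩
  have h6 : p' (inl (ra j, rb j)) = _ * p (inl (ra j, rb j)) :=
    (congrFun (congrFun h4 _) _).trans (root_conj j a b h1)
  simp only [fW, h5, h6, mW, eW, mP, Option.elim, ch_zero, Pi.one_apply, zpow_zero] at h2 ⊢
  linear_combination (t ^ (1 : ℤ) * ch (rtw j) h) * h2

theorem lz_TW (j : Fin (nr n)) : LZ (TW j) := by
  simpa [TW] using (LZ.univ.eqs (J := Unit) (f := fun _ => fW j) (fun _ =>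
    ((P275BC.Reg.coord _).mul (.coord _)).sub ((P275BC.Reg.coord _).mul (.coord _)))
    fun _ => .const 0).ex_ne fun i : Option (Fin 1) => P275BC.Reg.coord (inr (some i))

theorem par_hyp {E : Type} [NormedAddCommGroup E] [NormedSpace ℂ E] [FiniteDimensional ℂ E]
    {q : Submodule ℂ E} {x u : E} {f : E → ℂ} {c : ℂ} {a : ℕ} (hx : x ∈ q) (hu : u ∈ q)
    (hf : AnalyticAt ℂ f x) (h0 : f x = 0) (hc : c ≠ 0) (h : ∀ s : ℂ, f (x + s • u) = s * c)
    (ha : finrank ℂ q = a + 1) : Par a (q ∩ {y | f y = 0}) x := by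
  refine ((ha ▸ par_sub q hx).eqn.inter (finrank_self ℂ) hf fun w => ?_).par ⟨hx, h0⟩
  have h1 : HasDerivAt (fun s : ℂ => x + (s * (w / c)) • u) ((w / c) • u) 0 := by
    simpa using (((hasDerivAt_id (0 : ℂ)).mul_const (w / c)).smul_const u).const_add x
  refine ⟨_, by simp, .of_forall fun s => add_mem hx (q.smul_mem _ hu), h1.differentiableAt, ?_⟩
  rw [h1.deriv]
  refine (HasFDerivAt.comp_hasDerivAt_of_eq 0 hf.differentiableAt.hasFDerivAt h1 (by simp)).unique ?_
  simpa [comp_def, h, hc, mul_assoc] using (hasDerivAt_id (0 : ℂ)).mul_const w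

theorem par_TW (j : Fin (nr n)) {a : ℕ} (ha : finrank ℂ (nkJ n j JW) = a + 1) :
    ∀ p ∈ SB j (TW j), Par a (SB j (TW j)) p := by
  rintro p ⟨h1, h2, i, h3⟩
  have h4 : AnalyticAt ℂ (fW j) p :=
    ((an_coord _ _).fun_mul (an_coord _ _)).fun_sub ((an_coord _ _).fun_mul (an_coord _ _))
  refine Par.congr (S := nkJ n j JW ∩ {y | fW j y = 0}) ?_ 
    (((continuous_apply _).continuousAt.eventually_ne h3).mono fun y l => and_congr_right fun _ => (and_iff_left ⟨i, l⟩).symm)
  rw [fW] at h2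
  rcases i with _ | i
  · refine par_hyp (u := Pi.single (inl (ra j, rb j)) 1) h1 (mem_nk.2 fun q l => Pi.single_eq_of_ne
      (fun e => l ⟨j, le_rfl, (inl.inj e).symm⟩) _) h4 h2 (neg_ne_zero.2 h3) (fun s => ?_) ha
    simp only [fW, Pi.add_apply, Pi.smul_apply, Pi.single_apply]
    simp
    linear_combination h2
  · rw [Subsingleton.elim i 0] at h3
    refine par_hyp (u := Pi.single (inr none) 1) h1 (mem_nk.2 fun q l => Pi.single_eq_of_ne
      inl_ne_inr _) h4 h2 h3 (fun s => ?_) ha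
    simp only [fW, Pi.add_apply, Pi.smul_apply, Pi.single_apply]
    simp
    linear_combination h2

variable [h : Ok g n d]

variable (g d) in
/-- the variety `W` -/
def bW (j : Fin (nr n)) (hD : D + j = 2 * dimR g n + 2 * nr n + 1) :
    BB g j d (bor n) (mW j) eW (TW j) (nr n - j + 2 + dimZ g n) D :=
  have := finrank_nkJ (J := JW) j.2.le
  (bvB1 (adm_bor h.hn)
    (fun i => by rcases i with _ | i; exacts [by simp [mW], sum_mP (sum_rtw j) 0 i])
    (lz_TW j) (par_TW j (by simp at this; omega)) (inv_TW j)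
    (fun _ ⟨_, _, i, l⟩ => ⟨some i, rfl, l⟩) (by
      have := dimZ_eq (h := h); have := Nat.pos_of_ne_zero h.hn; omega)).1.some

end Vale.Agent.P275BW
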