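import Vale.Agent.P275BW.Fa
import Vale.Agent.P275BC.Mat

/-!
# P275, rational frames for Borel type groups acting on tuples with a cyclic vector
-/

open Set Function Matrix
open P275BC (UT ut_diag)

set_option linter.unusedSectionVars false

noncomputable section

namespace Vale.Agent.P275BW

variable {ι Y J : Type} {n : ℕ}

/-- the first `k` columns of `M` completed by the unit matrix -/
def Ck (k : Fin n) (M : Mq (Fin n)) : Mq (Fin n) :=
  of fun a j => if j < k then M a j else (1 : Mq (Fin n)) a j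

/-- the inverse of the lower unipotent factor -/
def Lam (M : Mq (Fin n)) : Mq (Fin n) := of fun k a => (Ck k M)⁻¹ k a

/-- the product of the leading minors -/
def dl (M : Mq (Fin n)) : ℂ := M.det * ∏ k, (Ck k M).det

variable {M β : Mq (Fin n)}

theorem Ck_one (k : Fin n) : Ck k (1 : Mq (Fin n)) = 1 := by
  ext a j
  simp [Ck]

theorem dl_one : dl (1 : Mq (Fin n)) = 1 := by simp [dl, Ck_one]

theorem Ck_mul (hβ : UT β) (k : Fin n) : Ck k (M * β) = Ck k M * Ck k β := by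
  ext a j
  rw [mul_apply]
  by_cases h : j < k
  · simp only [Ck, of_apply, h, if_true, mul_apply]
    refine Finset.sum_congr rfl fun c _ => ?_
    by_cases h2 : c < k
    · rw [if_pos h2]
    · rw [hβ c j (h.trans_le (not_lt.1 h2)), mul_zero, mul_zero]
  · simp only [Ck, of_apply, h, if_false]
    rw [Finset.sum_eq_single j (fun c _ hc => by rw [one_apply_ne hc, mul_zero]) (by simp),
      if_neg h, one_apply_eq, mul_one]

theorem dl_mul (hβ : UT β) : dl (M * β) = dl β * dl M := by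
  simp only [dl, Ck_mul hβ, det_mul, Finset.prod_mul_distrib]
  ring

theorem UT.diag_ne (hβ : UT β) (h : β.det ≠ 0) (a : Fin n) : β a a ≠ 0 :=
  Finset.prod_ne_zero_iff.1 (by rwa [hβ.det] at h : ∏ a, β a a ≠ 0) a (Finset.mem_univ a)

theorem ut_Ck (hβ : UT β) (k : Fin n) : UT (Ck k β) := fun a c h => by
  simp only [Ck, of_apply, hβ a c h, one_apply_ne h.ne', ite_self]

theorem dl_ut (hβ : UT β) (h : β.det ≠ 0) : dl β ≠ 0 :=
  mul_ne_zero h (Finset.prod_ne_zero_iff.2 fun k _ => by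
    rw [(ut_Ck hβ k).det]
    refine Finset.prod_ne_zero_iff.2 fun a _ => ?_
    simp only [Ck, of_apply]
    split_ifs
    exacts [UT.diag_ne hβ h a, by simp])

theorem dl_det (h : dl M ≠ 0) : M.det ≠ 0 := left_ne_zero_of_mul h

theorem dl_Ck (h : dl M ≠ 0) (k : Fin n) : IsUnit (Ck k M).det :=
  (Finset.prod_ne_zero_iff.1 (right_ne_zero_of_mul h) k (Finset.mem_univ k)).isUnit

theorem Lam_mul (hβ : UT β) (h : β.det ≠ 0) : Lam (M * β) = Lam M := by
  ext k a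
  have h1 : ∀ c, (Ck k β)⁻¹ k c = (1 : Mq (Fin n)) k c := fun c => by
    rw [← mul_nonsing_inv _ (dl_Ck (dl_ut hβ h) k), mul_apply, Finset.sum_eq_single k]
    · simp [Ck]
    · intro j _ hj
      refine mul_eq_zero_of_left ?_ _
      simp only [Ck, of_apply]
      split_ifs with h2
      exacts [hβ k j h2, one_apply_ne hj.symm]
    · simp
  simp only [Lam, of_apply, Ck_mul hβ, Matrix.mul_inv_rev]
  rw [mul_apply]
  simp only [h1]
  rw [← mul_apply, Matrix.one_mul]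

theorem ut_Lam (h : dl M ≠ 0) : UT (Lam M * M) := fun k j hj => by
  have := congrFun (congrFun (nonsing_inv_mul _ (dl_Ck h k)) k) j
  rw [one_apply_ne hj.ne', mul_apply] at this
  rw [mul_apply, ← this]
  exact Finset.sum_congr rfl fun c _ => by simp [Lam, Ck, hj]

theorem det_Lam (h : dl M ≠ 0) : (Lam M).det = 1 := by
  have h1 : ∀ k j, k ≤ j → Lam M k j = (1 : Mq (Fin n)) k j := fun k j hj => by
    rw [← nonsing_inv_mul _ (dl_Ck h k), mul_apply, Finset.sum_eq_single j]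
    · simp [Lam, Ck, hj.not_gt]
    · intro c _ hc
      simp [Ck, hj.not_gt, one_apply_ne hc]
    · simp
  rw [det_of_isLowerTriangular _ fun k j hj => (h1 k j (le_of_lt hj)).trans
    (one_apply_ne (ne_of_lt hj))]
  simp [h1]

theorem ms_Ck {S : Subalgebra ℂ (Y → ℂ)} {M : Y → Mq (Fin n)} (h : MS S M) (k : Fin n) :
    MS S fun y => Ck k (M y) := fun a j => by
  simp only [Ck, of_apply]
  split_ifs
  exacts [h a j, s_const S _]

theorem s_dl {S : Subalgebra ℂ (Y → ℂ)} {M : Y → Mq (Fin n)} (h : MS S M) :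
    (fun y => dl (M y)) ∈ S := s_mul h.det (s_prod _ fun k => (ms_Ck h k).det)

/-- A weak frame: equivariant up to the scalar `κ`. -/
structure WF (G : Mq (Fin n) → Prop) (A : Mq (Fin n) → Mq (Fin n) → (ι → ℂ) → ι → ℂ)
    (κ χ : Mq (Fin n) → ℂ) (F : (ι → ℂ) → ℂ) (b : (ι → ℂ) → Mq (Fin n)) : Prop where
  pl : F ∈ PlS ι
  sem : ∀ h, G h → ∀ x, F (A h h⁻¹ x) = χ h * F x
  mem : ∀ x, F x ≠ 0 → UT (b x) ∧ (b x).det ≠ 0
  eqv : ∀ h, G h → ∀ x, b (A h h⁻¹ x) = b x * (κ h • h⁻¹)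
  lb : MS (LcS pl) b
  li : MS (LcS pl) fun x => (b x)⁻¹

variable {G : Mq (Fin n) → Prop} {A : Mq (Fin n) → Mq (Fin n) → (ι → ℂ) → ι → ℂ}
  {κ χ : Mq (Fin n) → ℂ} {F : (ι → ℂ) → ℂ} {b Φ : (ι → ℂ) → Mq (Fin n)}

theorem ut_inv (h : UT β) (k : β.det ≠ 0) : UT β⁻¹ := h.inv ((isUnit_iff_isUnit_det _).2 k.isUnit)

theorem det_inv_ne (k : β.det ≠ 0) : β⁻¹.det ≠ 0 := (isUnit_nonsing_inv_det _ k.isUnit).ne_zero

theorem ut_smul (c : ℂ) (h : UT β) : UT (c • β) := fun a j k => by simp [h a j k]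

theorem wf_of (hG : ∀ h, G h → UT h ∧ h.det ≠ 0 ∧ κ h ≠ 0) (hΦ : MS (PlS ι) Φ)
    (he : ∀ h, G h → ∀ x, Φ (A h h⁻¹ x) = Φ x * (κ h • h⁻¹)) :
    WF G A κ (fun h => dl (κ h • h⁻¹)) (fun x => dl (Φ x)) fun x => Lam (Φ x) * Φ x := by
  have h1 : ∀ h, G h → UT (κ h • h⁻¹) ∧ (κ h • h⁻¹).det ≠ 0 := fun h k =>
    ⟨ut_smul _ (ut_inv (hG h k).1 (hG h k).2.1), by
      rw [det_smul]; exact mul_ne_zero (pow_ne_zero _ (hG h k).2.2) (det_inv_ne (hG h k).2.1)⟩
  have h2 := s_dl hΦ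
  have h3 : MS (LcS h2) fun x => Lam (Φ x) * Φ x := by
    refine MS.mul (fun k a => ?_) (hΦ.mono (pl_le _))
    refine MS.inv ((ms_Ck hΦ k).mono (pl_le _)) (lc_inv h2 (E := fun x => (Φ x).det *
      ∏ j ∈ Finset.univ.erase k, (Ck j (Φ x)).det)
      (s_mul hΦ.det (s_prod _ fun j => (ms_Ck hΦ j).det)) fun x => ?_) k a
    rw [dl, ← Finset.mul_prod_erase _ _ (Finset.mem_univ k)]
    ring
  refine ⟨h2, fun h k x => by rw [he h k, dl_mul (h1 h k).1], fun x hx => ⟨ut_Lam hx, ?_⟩,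
    fun h k x => by rw [he h k, Lam_mul (h1 h k).1 (h1 h k).2, Matrix.mul_assoc], h3,
    h3.inv (lc_congr (lc_inv h2 (s_prod _ fun j => (ms_Ck hΦ j).det) fun _ => rfl) fun x hx => ?_)⟩
  · rw [det_mul, det_Lam hx, one_mul]
    exact dl_det hx
  · rw [det_mul, det_Lam hx, one_mul]

/-- upper triangular matrices with zeros at the diagonal places `σ a` -/
def Wσ (σ : Fin n → Fin n) : Submodule ℂ (Mq (Fin n)) where
  carrier := {w | UT w ∧ ∀ a, w (σ a) (σ a) = 0}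
  add_mem' := fun h k => ⟨fun a c e => by simp [h.1 a c e, k.1 a c e], fun a => by
    simp [h.2 a, k.2 a]⟩
  zero_mem' := ⟨fun _ _ _ => rfl, fun _ => rfl⟩
  smul_mem' := fun c _ h => ⟨ut_smul c h.1, fun a => by simp [h.2 a]⟩

theorem gp_Wσ {σ : Fin n → Fin n} {h : Mq (Fin n)} :
    Gp (Wσ σ) h ↔ UT h ∧ (∀ a, h (σ a) (σ a) = 1) ∧ h.det ≠ 0 := by
  refine ⟨fun k => ⟨fun a c e => ?_, fun a => ?_, k.2⟩,
    fun k => ⟨⟨fun a c e => ?_, fun a => ?_⟩, k.2.2⟩⟩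
  · simpa [one_apply_ne e.ne'] using k.1.1 a c e
  · simpa [sub_eq_zero] using k.1.2 a
  · simp [one_apply_ne e.ne', k.1 a c e]
  · simp [k.2.1 a]

theorem inv_diag (h : UT β) (k : β.det ≠ 0) (a : Fin n) : β⁻¹ a a = (β a a)⁻¹ :=
  eq_inv_of_mul_eq_one_left (h.inv_diag ((isUnit_iff_isUnit_det _).2 k.isUnit) a)

theorem gmul_Wσ {σ : Fin n → Fin n} (g h : Mq (Fin n)) (k : Gp (Wσ σ) g) (k' : Gp (Wσ σ) h) :
    Gp (Wσ σ) (g * h) := by
  rw [gp_Wσ] at *
  exact ⟨k.1.mul k'.1, fun a => by rw [k.1.mul_diag k'.1, k.2.1, k'.2.1, one_mul],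
    by rw [det_mul]; exact mul_ne_zero k.2.2 k'.2.2⟩

theorem ginv_Wσ {σ : Fin n → Fin n} (h : Mq (Fin n)) (k : Gp (Wσ σ) h) : Gp (Wσ σ) h⁻¹ := by
  rw [gp_Wσ] at *
  exact ⟨ut_inv k.1 k.2.2, fun a => by rw [inv_diag k.1 k.2.2, k.2.1, inv_one], det_inv_ne k.2.2⟩

theorem WF.frm {σ : Fin n → Fin n} (hσ : ∀ a, σ (σ a) = σ a) (h : WF (Gp (Wσ σ)) A κ χ F b)
    (hκ : ∀ h, Gp (Wσ σ) h → κ h ≠ 0) :
    Frm (Wσ σ) A χ F fun x => diagonal (fun a => (b x (σ a) (σ a))⁻¹) * b x := by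
  have h0 : ∀ x, F x ≠ 0 → ∀ a, b x a a ≠ 0 := fun x hx => UT.diag_ne (h.mem x hx).1 (h.mem x hx).2
  refine ⟨h.pl, h.sem, fun x hx => gp_Wσ.2 ⟨(ut_diag _).mul (h.mem x hx).1, fun a => ?_, ?_⟩,
    fun g k x hx => ?_, MS.mul (fun a c => ?_) h.lb, fun a c => ?_⟩
  · rw [diagonal_mul, hσ, inv_mul_cancel₀ (h0 x hx _)]
  · rw [det_mul, det_diagonal]
    exact mul_ne_zero (Finset.prod_ne_zero_iff.2 fun a _ => inv_ne_zero (h0 x hx _))
      (h.mem x hx).2
  · have k' := gp_Wσ.1 (ginv_Wσ g k)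
    have h1 := hκ g k
    have h2 := h0 x hx
    simp only [h.eqv g k, (h.mem x hx).1.mul_diag (ut_smul _ k'.1), Matrix.smul_apply, k'.2.1]
    ext a c
    simp only [Matrix.mul_assoc, diagonal_mul, Matrix.mul_smul, Matrix.smul_apply, smul_eq_mul]
    field_simp
  · simp only [diagonal_apply]
    split_ifs
    · exact lc_congr (h.li (σ a) (σ a)) fun x hx => (inv_diag (h.mem x hx).1 (h.mem x hx).2 _).symm
    · exact s_const _ 0
  · refine lc_congr (s_mul (h.li a c) (h.lb (σ c) (σ c))) fun x hx => ?_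
    simp only
    rw [Matrix.mul_inv_rev, inv_eq_right_inv (A := diagonal _)
      (B := diagonal fun a => b x (σ a) (σ a)), mul_diagonal]
    rw [diagonal_mul_diagonal, ← diagonal_one]
    exact congrArg diagonal (funext fun a => inv_mul_cancel₀ (h0 x hx _))

/-- the value of a positive word -/
def wd (p : J → Mq (Fin n)) (l : List J) : Mq (Fin n) := (l.map p).prod

theorem wd_conj {p p' : J → Mq (Fin n)} {h : Mq (Fin n)} (k : h.det ≠ 0)
    (e : ∀ j, p' j = h * p j * h⁻¹) (l : List J) : wd p' l = h * wd p l * h⁻¹ := by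
  induction l with
  | nil => simp [wd, mul_nonsing_inv _ k.isUnit]
  | cons j l ih =>
    simp only [wd, List.map_cons, List.prod_cons] at ih ⊢
    rw [ih, e]
    simp only [Matrix.mul_assoc, nonsing_inv_mul_cancel_left _ _ k.isUnit]

theorem ms_wd {S : Subalgebra ℂ (Y → ℂ)} {p : Y → J → Mq (Fin n)} (h : ∀ j, MS S fun y => p y j)
    (l : List J) : MS S fun y => wd (p y) l := by
  induction l with
  | nil => exact MS.const S 1
  | cons j l ih => simpa only [wd, List.map_cons, List.prod_cons] using (h j).mul ih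

variable {r : ℕ}

/-- the first columns of `r + 1` words -/
def cm (p : J → Mq (Fin (r + 1))) (w : Fin (r + 1) → List J) : Mq (Fin (r + 1)) :=
  of fun a i => wd p (w i) a 0

/-- the first basis vector is cyclic -/
def Cyc (p : J → Mq (Fin (r + 1))) : Prop := ∃ w, (cm p w).det ≠ 0

theorem cm_conj {p p' : J → Mq (Fin (r + 1))} {h : Mq (Fin (r + 1))} (hu : UT h) (k : h.det ≠ 0)
    (e : ∀ j, p' j = h * p j * h⁻¹) (w : Fin (r + 1) → List J) :
    cm p' w = (h 0 0)⁻¹ • (h * cm p w) := by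
  ext a i
  simp only [cm, of_apply, wd_conj k e, Matrix.smul_apply, smul_eq_mul]
  rw [mul_apply, Finset.sum_eq_single 0, inv_diag hu k, mul_comm]
  · rfl
  · exact fun c _ hc => by rw [ut_inv hu k c 0 (Fin.pos_of_ne_zero hc), mul_zero]
  · simp

theorem cyc_of_irr {p : J → Mq (Fin (r + 1))} (h : ∀ E : Submodule ℂ (Fin (r + 1) → ℂ),
    (∀ j, ∀ v ∈ E, p j *ᵥ v ∈ E) → E = ⊥ ∨ E = ⊤) : Cyc p := by
  let c : List J → Fin (r + 1) → ℂ := fun l a => wd p l a 0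
  have h1 : Submodule.span ℂ (range c) = ⊤ := by
    refine (h _ fun j v hv => ?_).resolve_left fun e => ?_
    · refine (Submodule.span_le (p := (Submodule.span ℂ (range c)).comap (p j).mulVecLin)).2 ?_ hv
      rintro _ ⟨l, rfl⟩
      exact Submodule.subset_span ⟨j :: l, by
        funext a
        simp [c, wd, mul_apply, mulVec, dotProduct]⟩
    · have : c [] ∈ Submodule.span ℂ (range c) := Submodule.subset_span ⟨[], rfl⟩
      rw [e, Submodule.mem_bot] at this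
      simpa [c, wd] using congrFun this 0
  obtain ⟨s, h2, h3, h4⟩ := exists_linearIndependent ℂ (range c)
  let B := (Module.Basis.mk h4 (by rw [Subtype.range_coe, h3, h1]))
  let e := B.indexEquiv (Pi.basisFun ℂ (Fin (r + 1)))
  choose w hw using fun i => h2 (e.symm i).2
  refine ⟨w, IsUnit.ne_zero ((isUnit_iff_isUnit_det _).1 (linearIndependent_cols_iff_isUnit.1 ?_))⟩
  have e1 : (cm p w).col = Subtype.val ∘ e.symm := funext hw
  rw [e1]
  exact h4.comp e.symm e.symm.injective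

/-- Weak frames exist at tuples with a cyclic vector. -/
theorem ex_wf {G : Mq (Fin (r + 1)) → Prop}
    {A : Mq (Fin (r + 1)) → Mq (Fin (r + 1)) → (ι → ℂ) → ι → ℂ} {p : (ι → ℂ) → J → Mq (Fin (r + 1))}
    (hG : ∀ h, G h → UT h ∧ h.det ≠ 0) (hp : ∀ j, MS (PlS ι) fun x => p x j)
    (he : ∀ h, G h → ∀ x j, p (A h h⁻¹ x) j = h * p x j * h⁻¹) :
    ∃ κ χ : Mq (Fin (r + 1)) → ℂ, (∀ h, G h → κ h ≠ 0 ∧ χ h ≠ 0) ∧ ∀ x, Cyc (p x) →
      ∃ F b, F x ≠ 0 ∧ WF G A κ χ F b ∧ ∀ y y', p y = p y' → F y = F y' ∧ b y = b y' := by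
  have h1 : ∀ h, G h → (h 0 0)⁻¹ ^ r * h.det ≠ 0 := fun h k =>
    mul_ne_zero (pow_ne_zero _ (inv_ne_zero (UT.diag_ne (hG h k).1 (hG h k).2 0))) (hG h k).2
  refine ⟨fun h => (h 0 0)⁻¹ ^ r * h.det, _, fun h k => ⟨h1 h k, dl_ut
    (ut_smul ((h 0 0)⁻¹ ^ r * h.det) (ut_inv (hG h k).1 (hG h k).2)) ?_⟩, fun x ⟨w, hw⟩ =>
    ⟨_, _, ?_, wf_of (Φ := fun y => (adjugate (cm (p x) w))⁻¹ * adjugate (cm (p y) w))
      (fun h k => ⟨(hG h k).1, (hG h k).2, h1 h k⟩)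
      ((MS.const _ _).mul (MS.adj fun a i => ms_wd hp _ _ _)) fun h k y => ?_,
      fun y y' e => by simp only [e, and_self]⟩⟩
  · rw [det_smul]
    exact mul_ne_zero (pow_ne_zero _ (h1 h k)) (det_inv_ne (hG h k).2)
  · rw [nonsing_inv_mul _ (by rw [det_adjugate]; exact (pow_ne_zero _ hw).isUnit), dl_one]
    exact one_ne_zero
  · rw [cm_conj (hG h k).1 (hG h k).2 (he h k y), adjugate_smul, adjugate_mul_distrib, inv_def h,
      Ring.inverse_eq_inv', smul_smul, mul_assoc _ h.det, mul_inv_cancel₀ (hG h k).2]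
    simp [Matrix.mul_assoc]

/-- **Frames for the groups between the unipotent group and the Borel group.** -/
theorem ex_frm {σ : Fin (r + 1) → Fin (r + 1)} (hσ : ∀ a, σ (σ a) = σ a)
    {A : Mq (Fin (r + 1)) → Mq (Fin (r + 1)) → (ι → ℂ) → ι → ℂ} {p : (ι → ℂ) → J → Mq (Fin (r + 1))}
    (hp : ∀ j, MS (PlS ι) fun x => p x j)
    (he : ∀ h, Gp (Wσ σ) h → ∀ x j, p (A h h⁻¹ x) j = h * p x j * h⁻¹) :
    ∃ χ : Mq (Fin (r + 1)) → ℂ, (∀ h, Gp (Wσ σ) h → χ h ≠ 0) ∧ ∀ x, Cyc (p x) →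
      ∃ F b, F x ≠ 0 ∧ Frm (Wσ σ) A χ F b ∧ ∀ y y', p y = p y' → F y = F y' ∧ b y = b y' := by
  obtain ⟨κ, χ, h1, h2⟩ := ex_wf (fun h k => ⟨(gp_Wσ.1 k).1, k.2⟩) hp he
  refine ⟨χ, fun h k => (h1 h k).2, fun x hx => ?_⟩
  obtain ⟨F, b, h3, h4, h5⟩ := h2 x hx
  exact ⟨F, _, h3, h4.frm hσ fun h k => (h1 h k).1, fun y y' e => by simp only [h5 y y' e, and_self]⟩

end Vale.Agent.P275BW
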