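import Vale.Agent.P275RG.Prod
import Vale.Agent.P275QV.Quot

/-!
# P275, quotients with rational slices as quasi-projective manifolds (definitions)
-/

open scoped Manifold ContDiff Topology
open Set Filter Topology MvPolynomial Function
open Vale.Agent.P272.K (Cm)
open Vale.Agent.P277Z (Hol)
open Vale.Agent.P281Z Vale.Agent.P275RG
open P275BC (qm ZC)
open P275QV (Par)

noncomputable section

namespace Vale.Agent.P275BW

variable {ι κ γ : Type}

/-- the rational slice map of the chart `c` -/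
def sl (f : κ → MvPolynomial ι ℂ) (z : γ → κ) (y : γ → ι → κ) (c : γ) (x : ι → ℂ) : ι → ℂ :=
  fun i => eval x (f (y c i)) / eval x (f (z c))

/-- Projective quotient package: `f` is a tuple of semi-invariants of one character without common
zero on `R`, and on the chart `f (z c) ≠ 0` the ratios `f (y c i) / f (z c)` are the coordinates
of a point of the same orbit. -/
structure PQ [Fintype ι] (r : (ι → ℂ) → (ι → ℂ) → Prop) (R : Set (ι → ℂ)) (f : κ → MvPolynomial ι ℂ)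
    (z : γ → κ) (y : γ → ι → κ) : Prop where
  hom : ∀ x ∈ R, ∀ x', r x x' → x' ∈ R ∧ ∃ c : ℂ, c ≠ 0 ∧ qm f x' = c • qm f x
  cov : ∀ x ∈ R, ∃ c, eval x (f (z c)) ≠ 0
  sec : ∀ x ∈ R, ∀ c, eval x (f (z c)) ≠ 0 → r x (sl f z y c x)
  mov : ∀ x ∈ R, ∀ x', r x x' → ∃ a : (ι → ℂ) → ι → ℂ, AnalyticAt ℂ a x' ∧ a x' = x ∧
    ∀ w ∈ R, r w (a w)

/-- the slice of the chart `c` -/
def Sl (R : Set (ι → ℂ)) (f : κ → MvPolynomial ι ℂ) (z : γ → κ) (y : γ → ι → κ) (c : γ) :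
    Set (ι → ℂ) := {x ∈ R | eval x (f (z c)) ≠ 0 ∧ sl f z y c x = x}

/-- A smooth quasi-affine variety `E` with coordinates `ε`. -/
structure AV (m : ℕ) {E : Type} [TopologicalSpace E] [ChartedSpace (Cm m) E] [Fintype ι]
    (ε : E → ι → ℂ) (c : Cp m E) : Prop where
  ind : IsInducing ε
  inj : Injective ε
  prj : c.Y.Prj
  reg : ∀ i, Reg c fun a => ε a i
  imm : ∀ a, Imm m (Fintype.card ι) (fun a k => ε a ((Fintype.equivFin ι).symm k)) a

/-- `π : E → Q` is an algebraic quotient with Zariski local algebraic sections. -/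
structure QV (m d : ℕ) {E Q : Type} [TopologicalSpace E] [ChartedSpace (Cm m) E]
    [TopologicalSpace Q] [ChartedSpace (Cm d) Q] (cE : Cp m E) (cQ : Cp d Q) (π : E → Q) :
    Prop where
  prj : cQ.Y.Prj
  alg : Alg cE cQ π
  onto : Surjective π
  sbm : ∀ a, Sbm m d π a
  sec : ∀ q, ∃ (O : TopologicalSpace.Opens Q) (cO : Cp d O) (σ : O → E), q ∈ O ∧
    Zc cQ (O : Set Q)ᶜ ∧ Alg cO cQ Subtype.val ∧ Alg cO cE σ ∧ ∀ u, π (σ u) = u

/-- **AFV**: smooth locally closed subsets of affine space. -/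
def AFV : Prop :=
  ∀ (ι : Type) [Fintype ι] (m : ℕ) (E : Type) [TopologicalSpace E] (ε : E → ι → ℂ)
    (A B : Set (ι → ℂ)), IsInducing ε → Injective ε → ZC A → ZC B → range ε = A \ B →
    (∀ a, Par m (range ε) (ε a)) →
    ∃ (_ : ChartedSpace (Cm m) E) (_ : IsManifold 𝓘(ℂ, Cm m) ω E) (c : Cp m E), AV m ε c

/-- **GEO**: the quotient is a quasi-projective manifold. -/
def GEO : Prop :=
  ∀ (ι κ γ : Type) [Fintype ι] [Finite κ] [Finite γ] (m d : ℕ) (E Q : Type) [TopologicalSpace E]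
    [ChartedSpace (Cm m) E] [IsManifold 𝓘(ℂ, Cm m) ω E] [TopologicalSpace Q] (ε : E → ι → ℂ)
    (cE : Cp m E) (π : E → Q) (r : (ι → ℂ) → (ι → ℂ) → Prop) (f : κ → MvPolynomial ι ℂ)
    (z : γ → κ) (y : γ → ι → κ) (A B : Set (ι → ℂ)), AV m ε cE → ZC A → ZC B →
    range ε = A \ B → PQ r (range ε) f z y → IsQuotientMap π →
    (∀ a b, π a = π b ↔ r (ε a) (ε b)) →
    (∀ c, ∀ x ∈ Sl (range ε) f z y c, Par d (Sl (range ε) f z y c) x) →
    ∃ (_ : ChartedSpace (Cm d) Q) (_ : IsManifold 𝓘(ℂ, Cm d) ω Q) (cQ : Cp d Q), QV m d cE cQ π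

end Vale.Agent.P275BW
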