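import Vale.Agent.P275BW.Defs

/-!
# P275, framed actions of matrix groups give projective quotient packages
-/

open Set Filter Topology MvPolynomial Function Matrix
open P275BC (qm ZC)
open P275QV (Par)

set_option linter.unusedSectionVars false

noncomputable section

namespace Vale.Agent.P275BW

variable {ι Y ν : Type} [Fintype ν] [DecidableEq ν]

/-- square matrices -/
abbrev Mq (ν : Type) : Type := Matrix ν ν ℂ

/-- polynomial functions -/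
def PlS (ι : Type) : Subalgebra ℂ ((ι → ℂ) → ℂ) where
  carrier := {f | ∃ P : MvPolynomial ι ℂ, ∀ x, f x = eval x P}
  mul_mem' := fun ⟨P, h⟩ ⟨Q, k⟩ => ⟨P * Q, fun x => by simp [h, k]⟩
  add_mem' := fun ⟨P, h⟩ ⟨Q, k⟩ => ⟨P + Q, fun x => by simp [h, k]⟩
  algebraMap_mem' := fun c => ⟨C c, fun x => by simp⟩

theorem pl_crd (i : ι) : (fun x : ι → ℂ => x i) ∈ PlS ι := ⟨X i, by simp⟩

/-- polynomials divided by powers of `F` -/
def LcS {F : (ι → ℂ) → ℂ} (hF : F ∈ PlS ι) : Subalgebra ℂ ((ι → ℂ) → ℂ) where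
  carrier := {f | ∃ N : ℕ, ∃ G ∈ PlS ι, ∀ x, F x ≠ 0 → f x * F x ^ N = G x}
  mul_mem' := fun ⟨N, G, h1, h2⟩ ⟨N', G', k1, k2⟩ => ⟨N + N', G * G', mul_mem h1 k1, fun x hx => by
    rw [Pi.mul_apply, Pi.mul_apply, ← h2 x hx, ← k2 x hx]; ring⟩
  add_mem' := fun ⟨N, G, h1, h2⟩ ⟨N', G', k1, k2⟩ => ⟨N + N', G * F ^ N' + G' * F ^ N,
    add_mem (mul_mem h1 (pow_mem hF _)) (mul_mem k1 (pow_mem hF _)), fun x hx => by
      simp only [Pi.add_apply, Pi.mul_apply, Pi.pow_apply, ← h2 x hx, ← k2 x hx]; ring⟩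
  algebraMap_mem' := fun c => ⟨0, _, algebraMap_mem _ c, fun x _ => by simp⟩

theorem pl_le {F : (ι → ℂ) → ℂ} (hF : F ∈ PlS ι) : PlS ι ≤ LcS hF :=
  fun f h => ⟨0, f, h, fun x _ => by simp⟩

theorem lc_congr {F f g : (ι → ℂ) → ℂ} {hF : F ∈ PlS ι} (h : f ∈ LcS hF)
    (e : ∀ x, F x ≠ 0 → g x = f x) : g ∈ LcS hF :=
  let ⟨N, G, h1, h2⟩ := h
  ⟨N, G, h1, fun x hx => by rw [e x hx, h2 x hx]⟩

theorem lc_inv {F D E : (ι → ℂ) → ℂ} (hF : F ∈ PlS ι) (hE : E ∈ PlS ι) (e : ∀ x, F x = D x * E x) :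
    (fun x => (D x)⁻¹) ∈ LcS hF :=
  ⟨1, E, hE, fun x hx => by
    rw [pow_one, e x, inv_mul_cancel_left₀ (left_ne_zero_of_mul (e x ▸ hx))]⟩

theorem lc_mono {F F' E : (ι → ℂ) → ℂ} (hF : F ∈ PlS ι) (hF' : F' ∈ PlS ι) (hE : E ∈ PlS ι)
    (e : ∀ x, F' x = F x * E x) : LcS hF ≤ LcS hF' := fun f ⟨N, G, h1, h2⟩ =>
  ⟨N, G * E ^ N, mul_mem h1 (pow_mem hE _), fun x hx => by
    rw [Pi.mul_apply, Pi.pow_apply, ← h2 x (left_ne_zero_of_mul (e x ▸ hx)), e x]; ring⟩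

/-- functions analytic at a point -/
def AnS {E : Type} [NormedAddCommGroup E] [NormedSpace ℂ E] (p : E) : Subalgebra ℂ (E → ℂ) where
  carrier := {f | AnalyticAt ℂ f p}
  mul_mem' := fun h k => AnalyticAt.mul h k
  add_mem' := fun h k => AnalyticAt.add h k
  algebraMap_mem' := fun _ => analyticAt_const

theorem pl_an [Fintype ι] {f : (ι → ℂ) → ℂ} (h : f ∈ PlS ι) (x : ι → ℂ) : f ∈ AnS x :=
  let ⟨P, hP⟩ := h
  (funext hP : f = _) ▸ P275QV.an_eval P x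

theorem lc_an [Fintype ι] {F f : (ι → ℂ) → ℂ} {hF : F ∈ PlS ι} (h : f ∈ LcS hF) {x : ι → ℂ}
    (hx : F x ≠ 0) : f ∈ AnS x := by
  obtain ⟨N, G, h1, h2⟩ := h
  have h3 : AnalyticAt ℂ F x := pl_an hF x
  refine ((pl_an h1 x).fun_div (h3.fun_pow N) (pow_ne_zero _ hx)).congr ?_
  filter_upwards [h3.continuousAt.eventually_ne hx] with y hy
  rw [← h2 y hy, mul_div_cancel_right₀ _ (pow_ne_zero _ hy)]

section MS
variable {S : Subalgebra ℂ (Y → ℂ)} {M N : Y → Mq ν}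

theorem s_const (S : Subalgebra ℂ (Y → ℂ)) (c : ℂ) : (fun _ => c) ∈ S := algebraMap_mem S c

theorem s_mul {f g : Y → ℂ} (h : f ∈ S) (k : g ∈ S) : (fun y => f y * g y) ∈ S := mul_mem h k

theorem s_sum {α : Type} (s : Finset α) {f : α → Y → ℂ} (h : ∀ a, f a ∈ S) :
    (fun y => ∑ a ∈ s, f a y) ∈ S := by
  simpa only [← Finset.sum_apply] using sum_mem fun a (_ : a ∈ s) => h a

theorem s_prod {α : Type} (s : Finset α) {f : α → Y → ℂ} (h : ∀ a, f a ∈ S) :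
    (fun y => ∏ a ∈ s, f a y) ∈ S := by
  simpa only [← Finset.prod_apply] using prod_mem fun a (_ : a ∈ s) => h a

theorem s_eval {g : Y → ι → ℂ} (h : ∀ i, (fun y => g y i) ∈ S) (P : MvPolynomial ι ℂ) :
    (fun y => eval (g y) P) ∈ S := by
  induction P using MvPolynomial.induction_on with
  | C a => simpa using s_const S a
  | add p q hp hq => simp only [map_add]; exact add_mem hp hq
  | mul_X p k hp => simpa only [map_mul, eval_X] using s_mul hp (h k)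

theorem s_pl {g : Y → ι → ℂ} (h : ∀ i, (fun y => g y i) ∈ S) {f : (ι → ℂ) → ℂ} (hf : f ∈ PlS ι) :
    (fun y => f (g y)) ∈ S := by
  obtain ⟨P, hP⟩ := hf
  simpa only [hP] using s_eval h P

/-- matrices of functions in `S` -/
def MS (S : Subalgebra ℂ (Y → ℂ)) (M : Y → Mq ν) : Prop := ∀ a b, (fun y => M y a b) ∈ S

theorem MS.const (S : Subalgebra ℂ (Y → ℂ)) (A : Mq ν) : MS S fun _ => A := fun _ _ => s_const S _

theorem MS.mul (h : MS S M) (k : MS S N) : MS S fun y => M y * N y := fun a b => by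
  simpa only [mul_apply] using s_sum _ fun c => s_mul (h a c) (k c b)

theorem MS.add (h : MS S M) (k : MS S N) : MS S fun y => M y + N y :=
  fun a b => add_mem (h a b) (k a b)

theorem MS.sub (h : MS S M) (k : MS S N) : MS S fun y => M y - N y :=
  fun a b => sub_mem (h a b) (k a b)

theorem MS.smul {f : Y → ℂ} (h : f ∈ S) (k : MS S N) : MS S fun y => f y • N y :=
  fun a b => s_mul h (k a b)

theorem MS.det (h : MS S M) : (fun y => (M y).det) ∈ S := by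
  simpa only [det_apply'] using s_sum _ fun σ => s_mul (s_const S _) (s_prod _ fun a => h _ _)

theorem MS.adj (h : MS S M) : MS S fun y => adjugate (M y) := fun a b => by
  simp only [adjugate_apply]
  refine MS.det fun i j => ?_
  simp only [updateRow_apply]
  split_ifs
  exacts [s_const S _, h i j]

theorem MS.inv (h : MS S M) (k : (fun y => (M y).det⁻¹) ∈ S) : MS S fun y => (M y)⁻¹ := by
  simpa only [inv_def, Ring.inverse_eq_inv'] using MS.smul k h.adj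

theorem MS.lin (h : MS S M) (φ : Mq ν →ₗ[ℂ] ℂ) : (fun y => φ (M y)) ∈ S := by
  have : ∀ A : Mq ν, φ A = ∑ a, ∑ b, A a b * φ (single a b 1) := fun A => by
    conv_lhs => rw [matrix_eq_sum_single A]
    simp only [map_sum]
    refine Finset.sum_congr rfl fun a _ => Finset.sum_congr rfl fun b _ => ?_
    rw [← smul_eq_mul, ← map_smul, smul_single, smul_eq_mul, mul_one]
  rw [funext fun y => this (M y)]
  exact s_sum _ fun a => s_sum _ fun b => s_mul (h a b) (s_const S _)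

theorem MS.mono {S' : Subalgebra ℂ (Y → ℂ)} (h : MS S M) (e : S ≤ S') : MS S' M :=
  fun a b => e (h a b)

end MS

/-- the group of invertible matrices in `1 + W` -/
def Gp (W : Submodule ℂ (Mq ν)) (h : Mq ν) : Prop := h - 1 ∈ W ∧ h.det ≠ 0

/-- `A h h' x` is polynomial in its arguments -/
def Pol {κ : Type} (A : Mq ν → Mq ν → (ι → ℂ) → κ → ℂ) : Prop :=
  ∀ (Y : Type) (S : Subalgebra ℂ (Y → ℂ)) (h h' : Y → Mq ν) (x : Y → ι → ℂ), MS S h → MS S h' →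
    (∀ i, (fun y => x y i) ∈ S) → ∀ k, (fun y => A (h y) (h' y) (x y) k) ∈ S

/-- `h ↦ A h h⁻¹` is an algebraic action of the group `Gp W` -/
structure Act (W : Submodule ℂ (Mq ν)) (A : Mq ν → Mq ν → (ι → ℂ) → ι → ℂ) : Prop where
  gmul : ∀ g h, Gp W g → Gp W h → Gp W (g * h)
  ginv : ∀ h, Gp W h → Gp W h⁻¹
  one : ∀ x, A 1 1 x = x
  mul : ∀ g h, Gp W g → Gp W h → ∀ x, A (g * h) (g * h)⁻¹ x = A g g⁻¹ (A h h⁻¹ x)
  pol : Pol A

/-- the orbit relation -/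
def Ob (W : Submodule ℂ (Mq ν)) (A : Mq ν → Mq ν → (ι → ℂ) → ι → ℂ) (x x' : ι → ℂ) : Prop :=
  ∃ h, Gp W h ∧ x' = A h h⁻¹ x

/-- an equivariant rational frame `b` on the set `F ≠ 0` -/
structure Frm (W : Submodule ℂ (Mq ν)) (A : Mq ν → Mq ν → (ι → ℂ) → ι → ℂ) (χ : Mq ν → ℂ)
    (F : (ι → ℂ) → ℂ) (b : (ι → ℂ) → Mq ν) : Prop where
  pl : F ∈ PlS ι
  sem : ∀ h, Gp W h → ∀ x, F (A h h⁻¹ x) = χ h * F x
  mem : ∀ x, F x ≠ 0 → Gp W (b x)
  eqv : ∀ h, Gp W h → ∀ x, F x ≠ 0 → b (A h h⁻¹ x) = b x * h⁻¹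
  lb : MS (LcS pl) b
  li : MS (LcS pl) fun x => (b x)⁻¹

variable {W : Submodule ℂ (Mq ν)} {A : Mq ν → Mq ν → (ι → ℂ) → ι → ℂ} {χ : Mq ν → ℂ}
  {F : (ι → ℂ) → ℂ} {b : (ι → ℂ) → Mq ν} {R : Set (ι → ℂ)}

theorem Gp.unit {h : Mq ν} (k : Gp W h) : IsUnit h.det := k.2.isUnit

theorem gp_one : Gp W 1 := ⟨by simp, by simp⟩

theorem Act.inv (hA : Act W A) {h : Mq ν} (k : Gp W h) (x : ι → ℂ) :
    A h⁻¹ h⁻¹⁻¹ (A h h⁻¹ x) = x := by
  rw [← hA.mul _ _ (hA.ginv h k) k, nonsing_inv_mul _ k.unit, inv_one, hA.one]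

theorem Act.refl (hA : Act W A) (x : ι → ℂ) : Ob W A x x := ⟨1, gp_one, by rw [inv_one, hA.one]⟩

theorem Act.symm (hA : Act W A) {x y : ι → ℂ} (h : Ob W A x y) : Ob W A y x :=
  let ⟨g, k, e⟩ := h
  ⟨g⁻¹, hA.ginv g k, by rw [e, hA.inv k]⟩

theorem Act.trans (hA : Act W A) {x y z : ι → ℂ} (h : Ob W A x y) (h' : Ob W A y z) :
    Ob W A x z :=
  let ⟨g, k, e⟩ := h
  let ⟨g', k', e'⟩ := h'
  ⟨g' * g, hA.gmul _ _ k' k, by rw [e', e, hA.mul _ _ k' k]⟩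

theorem Frm.slc (hf : Frm W A χ F b) (hA : Act W A) (hχ : ∀ h, Gp W h → χ h ≠ 0) {h : Mq ν}
    (k : Gp W h) {x : ι → ℂ} (hx : F x ≠ 0) :
    A (b (A h h⁻¹ x)) (b (A h h⁻¹ x))⁻¹ (A h h⁻¹ x) = A (b x) (b x)⁻¹ x := by
  rw [← hA.mul _ _ (hf.mem _ (by rw [hf.sem h k]; exact mul_ne_zero (hχ h k) hx)) k,
    hf.eqv h k x hx, nonsing_inv_mul_cancel_right _ _ k.unit]

theorem Frm.par [Fintype ι] (hf : Frm W A χ F b) (hA : Act W A) (hχ : ∀ h, Gp W h → χ h ≠ 0)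
    (hR : ∀ h, Gp W h → ∀ x ∈ R, A h h⁻¹ x ∈ R) {d : ℕ} {x : ι → ℂ}
    (hx : Par (d + Module.finrank ℂ W) R x) (h1 : F x ≠ 0) (h2 : A (b x) (b x)⁻¹ x = x) :
    Par d {x ∈ R | F x ≠ 0 ∧ A (b x) (b x)⁻¹ x = x} x := by
  obtain ⟨pr, hpr⟩ := W.subtype.exists_leftInverse_of_injective W.ker_subtype
  let e := (Module.finBasis ℂ W).equivFun
  let π : Mq ν →ₗ[ℂ] Fin (Module.finrank ℂ W) → ℂ := e.toLinearMap ∘ₗ pr
  let j : (Fin (Module.finrank ℂ W) → ℂ) →ₗ[ℂ] Mq ν := W.subtype ∘ₗ e.symm.toLinearMap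
  have e1 : ∀ w ∈ W, j (π w) = w := fun w hw => by
    have := LinearMap.congr_fun hpr ⟨w, hw⟩
    simp only [LinearMap.comp_apply, Submodule.subtype_apply, LinearMap.id_apply] at this
    simp [j, π, this]
  have e2 : ∀ v, π (j v) = v := fun v => by
    have := LinearMap.congr_fun hpr (e.symm v)
    simp only [LinearMap.comp_apply, LinearMap.id_apply] at this
    simp only [j, π, LinearMap.comp_apply, LinearEquiv.coe_coe, this, LinearEquiv.apply_symm_apply]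
  have e3 : ∀ z, F z ≠ 0 → A (b z) (b z)⁻¹ z = z → b z = 1 := fun z k1 k2 => by
    have := hf.eqv _ (hf.mem z k1) z k1
    rwa [k2, mul_nonsing_inv _ (hf.mem z k1).unit] at this
  have a1 : MS (AnS x) b := hf.lb.mono fun _ h => lc_an h h1
  have a2 : MS (AnS x) fun y => (b y)⁻¹ := hf.li.mono fun _ h => lc_an h h1
  have e4 : (A (b x) (b x)⁻¹ x, π ((b x)⁻¹ - 1)) = (x, 0) := by rw [h2, e3 x h1 h2]; simp
  have a3 : MS (AnS (x, (0 : Fin (Module.finrank ℂ W) → ℂ))) fun p => 1 + j p.2 :=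
    (MS.const _ 1).add fun a c => (LinearMap.toContinuousLinearMap
      ((Matrix.entryLinearMap ℂ ℂ a c ∘ₗ j) ∘ₗ LinearMap.snd ℂ (ι → ℂ) _)).analyticAt _
  have a4 : (fun p : (ι → ℂ) × (Fin (Module.finrank ℂ W) → ℂ) => (1 + j p.2).det) (x, 0) ≠ 0 := by
    simp
  refine Par.of_prod (τ := 0) (F := Fin (Module.finrank ℂ W) → ℂ) (r := Module.finrank ℂ W)
    (by simp) ?_
  rw [← e4]
  refine hx.map (f := fun y => (A (b y) (b y)⁻¹ y, π ((b y)⁻¹ - 1)))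
    (g := fun p => A (1 + j p.2) (1 + j p.2)⁻¹ p.1) (AnalyticAt.prod
      (AnalyticAt.pi (hA.pol _ _ _ _ _ a1 a2 fun i => P275QV.an_coord i x))
      (AnalyticAt.pi fun l => (a2.sub (MS.const _ 1)).lin
        (LinearMap.proj (R := ℂ) (φ := fun _ => ℂ) l ∘ₗ π))) ?_ ?_ ?_
  · simp only [e4]
    exact AnalyticAt.pi (hA.pol _ _ _ _ _ a3 (a3.inv (a3.det.fun_inv a4)) fun i =>
      AnalyticAt.fun_comp (g := fun y : ι → ℂ => y i) (P275QV.an_coord i x) analyticAt_fst)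
  · filter_upwards [(pl_an hf.pl x).continuousAt.eventually_ne h1] with y k1 k2
    have k3 := hf.mem y k1
    refine ⟨⟨⟨hR _ k3 y k2, by rw [hf.sem _ k3]; exact mul_ne_zero (hχ _ k3) k1,
      hf.slc hA hχ k3 k1⟩, trivial⟩, ?_⟩
    simp only [e1 _ (hA.ginv _ k3).1, add_sub_cancel, hA.inv k3]
  · simp only [e4]
    filter_upwards [a3.det.continuousAt.eventually_ne a4] with p k1 k2
    obtain ⟨⟨k2, k3, k4⟩, -⟩ := k2
    have k5 : Gp W (1 + j p.2) := ⟨by simp [j], k1⟩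
    refine ⟨hR _ k5 _ k2, Prod.ext ((hf.slc hA hχ k5 k3).trans k4) ?_⟩
    simp only [hf.eqv _ k5 _ k3, e3 _ k3 k4, Matrix.one_mul, nonsing_inv_nonsing_inv _ k5.unit,
      add_sub_cancel_left, e2]

/-- finitely many charts suffice -/
theorem fin_cover [Finite ι] {Γ : Type} {F : Γ → (ι → ℂ) → ℂ} (hF : ∀ c, F c ∈ PlS ι) :
    ∃ (γ : Type) (_ : Finite γ) (e : γ → Γ), ∀ x c, F c x ≠ 0 → ∃ c', F (e c') x ≠ 0 := by
  choose P hP using hF
  obtain ⟨T, h1, h2⟩ := (Submodule.fg_span_iff_fg_span_finset_subset (range P)).1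
    (IsNoetherian.noetherian (Ideal.span (range P)))
  choose e he using fun t : T => h1 t.2
  refine ⟨T, inferInstance, e, fun x c hc => by_contra fun h => hc ?_⟩
  have h3 : Submodule.span (MvPolynomial ι ℂ) (T : Set (MvPolynomial ι ℂ)) ≤
      RingHom.ker (MvPolynomial.eval x) := Submodule.span_le.2 fun t ht => by
    have := not_not.1 (not_exists.1 h ⟨t, ht⟩)
    rwa [hP, he] at this
  rw [hP]
  exact h3 (h2 ▸ Submodule.subset_span (mem_range_self c))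

/-- one exponent for finitely many fractions -/
theorem unif {α : Type} [Finite α] {F f : α → (ι → ℂ) → ℂ} {hF : ∀ a, F a ∈ PlS ι}
    (h : ∀ a, f a ∈ LcS (hF a)) : ∃ N : ℕ, ∀ a, (fun x => f a x * F a x ^ (N + 1)) ∈ PlS ι := by
  choose N G h1 h2 using h
  obtain ⟨M, hM⟩ := (Set.finite_range N).bddAbove
  refine ⟨M, fun a => ?_⟩
  obtain ⟨k, hk⟩ := Nat.exists_eq_add_of_le (hM ⟨a, rfl⟩)
  convert mul_mem (h1 a) (pow_mem (hF a) (k + 1)) using 1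
  funext x
  by_cases hx : F a x = 0
  · simp [hx]
  · rw [Pi.mul_apply, Pi.pow_apply, ← h2 a x hx, hk]; ring

/-- **Framed actions have projective quotient packages with smooth slices.** -/
theorem pq_of [Fintype ι] (hA : Act W A) (hχ : ∀ h, Gp W h → χ h ≠ 0)
    (hR : ∀ h, Gp W h → ∀ x ∈ R, A h h⁻¹ x ∈ R) (hF : ∀ x ∈ R, ∃ F b, F x ≠ 0 ∧ Frm W A χ F b) :
    ∃ (κ γ : Type) (_ : Finite κ) (_ : Finite γ) (f : κ → MvPolynomial ι ℂ) (z : γ → κ)
      (y : γ → ι → κ), PQ (Ob W A) R f z y ∧ ∀ d, (∀ x ∈ R, Par (d + Module.finrank ℂ W) R x) →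
        ∀ c, ∀ x ∈ Sl R f z y c, Par d (Sl R f z y c) x := by
  choose F b h1 h2 using fun x : R => hF x.1 x.2
  obtain ⟨γ, _, e, he⟩ := fin_cover fun c => (h2 c).pl
  let s : γ × Option ι → (ι → ℂ) → ℂ := fun p x =>
    p.2.elim 1 fun i => A (b (e p.1) x) (b (e p.1) x)⁻¹ x i
  obtain ⟨N, hN⟩ := unif (F := fun p => F (e p.1)) (f := s) (hF := fun p => (h2 (e p.1)).pl)
    fun p => by
      rcases p with ⟨c, _ | i⟩
      · exact s_const _ 1
      · exact hA.pol _ _ _ _ _ (h2 _).lb (h2 _).li (fun i => pl_le _ (pl_crd i)) i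
  choose f hf using hN
  have k1 : ∀ c x, eval x (f (c, none)) ≠ 0 ↔ F (e c) x ≠ 0 := fun c x => by simp [← hf, s]
  have k2 : ∀ c x, F (e c) x ≠ 0 → sl f (fun c => (c, none)) (fun c i => (c, some i)) c x =
      A (b (e c) x) (b (e c) x)⁻¹ x := fun c x hx => funext fun i => by
    simp [sl, ← hf, s, hx]
  refine ⟨_, γ, inferInstance, inferInstance, f, fun c => (c, none), fun c i => (c, some i),
    ⟨?_, fun x hx => ?_, fun x hx c hc => ?_, ?_⟩, fun d hd c x hx => ?_⟩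
  · rintro x hx _ ⟨h, k, rfl⟩
    refine ⟨hR h k x hx, χ h ^ (N + 1), pow_ne_zero _ (hχ h k), funext fun p => ?_⟩
    simp only [qm, ← hf, Pi.smul_apply, smul_eq_mul, (h2 _).sem h k]
    by_cases h0 : F (e p.1) x = 0
    · simp [h0]
    · simp only [s, (h2 _).slc hA hχ k h0]; ring
  · obtain ⟨c, hc⟩ := he x ⟨x, hx⟩ (h1 _)
    exact ⟨c, (k1 c x).2 hc⟩
  · rw [k2 c x ((k1 c x).1 hc)]
    exact ⟨_, (h2 _).mem x ((k1 c x).1 hc), rfl⟩
  · rintro x hx _ ⟨h, k, rfl⟩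
    exact ⟨A h⁻¹ h⁻¹⁻¹, AnalyticAt.pi (hA.pol _ (AnS _) _ _ _ (MS.const _ _) (MS.const _ _)
      fun i => P275QV.an_coord i _), hA.inv k x, fun w _ => ⟨_, hA.ginv h k, rfl⟩⟩
  · have e1 : Sl R f (fun c => (c, none)) (fun c i => (c, some i)) c =
        {x ∈ R | F (e c) x ≠ 0 ∧ A (b (e c) x) (b (e c) x)⁻¹ x = x} := by
      ext w
      simp only [Sl, mem_sep_iff, k1]
      exact and_congr_right fun _ => and_congr_right fun h => by rw [k2 c w h]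
    rw [e1] at hx ⊢
    exact (h2 _).par hA hχ hR (hd x hx.1) hx.2.1 hx.2.2

end Vale.Agent.P275BW
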