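import Vale.Agent.P275BW.Sm
import Vale.Agent.P275QV.Ext
import Vale.Agent.P275B.Flat

/-!
# P275, families of tuples with prescribed commutator product
-/

open scoped Manifold ContDiff
open Set Filter Topology Function Matrix Module Sum
open P275BC hiding mt
open P275QV Vale.Agent.P275OM
open Vale.Agent.P272.K (Cm)
open Vale.Agent.P275RG (Cp Alg)

set_option linter.unusedSectionVars false

noncomputable section

namespace Vale.Agent.P275BW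

variable {n g r : ℕ} {ι κ ν : Type} [Fintype ι] [Fintype κ] [Fintype ν] [DecidableEq ν]

/-- a smooth invariant locally closed set with frames which depend on `p x` only -/
structure FD {Y : Type} (p : (ι → ℂ) → Y) (W : Submodule ℂ (Mq ν))
    (A : Mq ν → Mq ν → (ι → ℂ) → ι → ℂ) (m : ℕ) (R : Set (ι → ℂ)) : Prop where
  act : Act W A
  lz : LZ R
  inv : ∀ h, Gp W h → ∀ x ∈ R, A h h⁻¹ x ∈ R
  frm : ∃ χ : Mq ν → ℂ, (∀ h, Gp W h → χ h ≠ 0) ∧ ∀ x ∈ R, ∃ F b, F x ≠ 0 ∧ Frm W A χ F b ∧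
    ∀ y y', p y = p y' → F y = F y' ∧ b y = b y'
  par : ∀ x ∈ R, Par m R x

section FD
variable {Y E Q : Type} [TopologicalSpace E] [TopologicalSpace Q] {p : (ι → ℂ) → Y}
  {W : Submodule ℂ (Mq ν)} {A : Mq ν → Mq ν → (ι → ℂ) → ι → ℂ} {m d : ℕ} {R : Set (ι → ℂ)}
  {ε : E → ι → ℂ} {π : E → Q}

theorem FD.bv (h : FD p W A m R) (h1 : IsInducing ε) (h2 : Injective ε) (e : range ε = R)
    (hm : m = d + finrank ℂ W) (hq : IsQuotientMap π)
    (hπ : ∀ a b, π a = π b ↔ Ob W A (ε a) (ε b)) : Nonempty (BV m d ε π) := by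
  subst e
  obtain ⟨χ, k1, k2⟩ := h.frm
  exact ex_bv h.act k1 h1 h2 h.lz (fun g k a => h.inv g k _ ⟨a, rfl⟩)
    (fun a => let ⟨F, b, k3, k4, _⟩ := k2 _ ⟨a, rfl⟩; ⟨F, b, k3, k4⟩) hm
    (fun a => h.par _ ⟨a, rfl⟩) hq hπ

/-- extension by a torus -/
theorem FD.ext (h : FD p W A m R) {e : ι → ℤ} (hc : ∀ t ≠ 0, Cm2 W A (sc e t))
    (hp : ∀ t x, p (sc e t x) = p x) (hR : ∀ t ≠ 0, ∀ x ∈ R, sc e t x ∈ R)
    (h0 : ∀ x ∈ R, ∃ i, e i = 1 ∧ x i ≠ 0) : FD id (W2 W) (A2 e A) m R := by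
  obtain ⟨χ, k1, k2⟩ := h.frm
  obtain ⟨N, hN⟩ := ext_frm (R := R) (m := 0) h.act k1 hc (I := {i | e i = 1}) (fun _ k => k)
    (fun x hx g k => h0 _ (h.inv g k x hx)) (T := Empty) (φ := Empty.elim) (c := Empty.elim)
    (fun τ => τ.elim) (fun τ => τ.elim) fun x hx =>
      let ⟨F, b, k3, k4, k5⟩ := k2 x hx
      ⟨F, b, k3, k4, fun t _ y => ⟨by simp [(k5 _ _ (hp t y)).1], fun _ => (k5 _ _ (hp t y)).2⟩,
        fun τ => τ.elim⟩
  refine ⟨act2 h.act hc, h.lz, stb2 h.inv hR, ⟨_, χ2_ne k1 0 N, fun x hx => ?_⟩, h.par⟩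
  obtain ⟨F, b, k3, k4, -⟩ := hN x hx
  exact ⟨F, b, k3, k4, fun y y' e => by rw [show y = y' from e]; exact ⟨rfl, rfl⟩⟩

/-- the variety of a quotient -/
def BV.vr (X : BV m d ε π) : P275B.Vr d :=
  let _ := X.cQ
  have := X.mQ
  { X := Q, t2 := X.pQ.t2, sc := X.pQ.sc, cp := X.pQ }

end FD

/-- conjugation of tuples -/
def cjx (h h' : Mq (Fin n)) (x : Ix n g → ℂ) : Ix n g → ℂ :=
  fun i => (h * P275BC.mt x i.1 i.2.1 * h') i.2.2.1 i.2.2.2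

theorem mt_cjx (h h' : Mq (Fin n)) (x : Ix n g → ℂ) (k : Fin g) (e : Bool) :
    P275BC.mt (cjx h h' x) k e = h * P275BC.mt x k e * h' := rfl

theorem mu_cjx {h : Mq (Fin n)} (k : h.det ≠ 0) (x : Ix n g → ℂ) :
    mu (cjx h h⁻¹ x) = h * mu x * h⁻¹ := by
  let φ : Mx n →* Mx n := ⟨⟨fun M => h * M * h⁻¹, by simp [mul_nonsing_inv _ k.isUnit]⟩,
    fun M N => by simp only [Matrix.mul_assoc, nonsing_inv_mul_cancel_left _ _ k.isUnit]⟩
  change _ = φ _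
  simp only [mu, mt_cjx, map_list_prod, List.map_ofFn, comp_def, map_mul, Matrix.mul_inv_rev,
    nonsing_inv_nonsing_inv _ k.isUnit, ← Matrix.mul_assoc h]
  rfl

theorem det_cj {h : Mq ν} (k : h.det ≠ 0) (M : Mq ν) : (h * M * h⁻¹).det = M.det := by
  rw [det_mul, det_mul, mul_right_comm, ← det_mul, mul_nonsing_inv _ k.isUnit, det_one, one_mul]

/-- the action on parameters and tuples -/
def cA (a : Mq (Fin n) → Mq (Fin n) → (κ → ℂ) → κ → ℂ) (h h' : Mq (Fin n))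
    (y : κ ⊕ Ix n g → ℂ) : κ ⊕ Ix n g → ℂ := Sum.elim (a h h' (y ∘ inl)) (cjx h h' (y ∘ inr))

theorem Act.cA {W : Submodule ℂ (Mq (Fin n))} {a : Mq (Fin n) → Mq (Fin n) → (κ → ℂ) → κ → ℂ}
    (ha : Act W a) : Act W (cA (g := g) a) where
  gmul := ha.gmul
  ginv := ha.ginv
  one x := funext fun i => by
    rcases i with i | i
    · exact congrFun (ha.one _) i
    · simp [P275BW.cA, cjx, P275BC.mt]
  mul g h k k' x := funext fun i => by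
    rcases i with i | i
    · exact congrFun (ha.mul g h k k' _) i
    · simp only [P275BW.cA, elim_inr, elim_comp_inr, cjx, mt_cjx, Matrix.mul_inv_rev,
        Matrix.mul_assoc]
  pol Y S h h' x k k' e := by
    rintro (i | i)
    · exact ha.pol Y S h h' (fun y => x y ∘ inl) k k' (fun j => e _) i
    · exact (k.mul (N := fun y => P275BC.mt (x y ∘ inr) i.1 i.2.1) fun _ _ => e _).mul k' _ _

/-- the tuples of determinant one with commutator product `v` of the parameter -/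
def RF (g : ℕ) (S : Set (κ → ℂ)) (v : (κ → ℂ) → Mx n) : Set (κ ⊕ Ix n g → ℂ) :=
  {y | y ∘ inl ∈ S ∧ (∀ k e, (P275BC.mt (y ∘ inr) k e).det = 1) ∧ mu (y ∘ inr) = v (y ∘ inl)}

theorem pl_reg {f : (ι → ℂ) → ℂ} (h : f ∈ PlS ι) (S : Set (ι → ℂ)) : Reg S f :=
  let ⟨P, hP⟩ := h
  (Reg.poly P).congr fun x _ => hP x

theorem lz_RF {S : Set (κ → ℂ)} {v : (κ → ℂ) → Mx n} (hS : LZ S) (hv : MS (PlS κ) v) :
    LZ (RF g S v) := by
  have h0 : ∀ T k e, MS (RgS T) fun y : κ ⊕ Ix n g → ℂ => P275BC.mt (y ∘ inr) k e :=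
    fun _ _ _ _ _ => Reg.coord _
  have h1 := (LZ.univ.pre hS (F := fun y : κ ⊕ Ix n g → ℂ => y ∘ inl) fun _ => Reg.coord _).eqs
    (J := Fin g × Bool) (fun j => (h0 _ j.1 j.2).det) fun _ => Reg.const 1
  convert h1.eqs (J := Fin n × Fin n) (fun j => ms_mu (S := RgS _) (x := fun y => y ∘ inr)
    (fun _ => Reg.coord _) (fun k e => Reg.inv (h0 _ k e).det fun y hy => by
      rw [hy.2 (k, e)]; exact one_ne_zero) j.1 j.2)
    fun j => s_pl (S := RgS _) (g := fun y => y ∘ inl) (fun _ => Reg.coord _) (hv j.1 j.2) using 1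
  ext y
  simp [RF, ← Matrix.ext_iff, and_assoc]

theorem rf_rt {S : Set (κ → ℂ)} {v : (κ → ℂ) → Mx n} {y : κ ⊕ Ix n g → ℂ} (hy : y ∈ RF g S v)
    (h : UT (v (y ∘ inl))) : y ∘ inr ∈ Rt g fun a => v (y ∘ inl) a a :=
  ⟨hy.2.1, hy.2.2 ▸ h, fun a => by rw [hy.2.2]⟩

theorem tr_mu {x : Ix (r + 1) g → ℂ} (h : ∀ k e, (P275BC.mt x k e).det = 1) (h4 : UT (mu x))
    (L : Mx (r + 1)) (c : ℂ) (h1 : ∀ a b, ¬ (a, b) ≠ 0 → L a b = 0) (h2 : mu x * L = c • 1) :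
    L = 0 := by
  have h3 : (mu x).det ≠ 0 := by rw [det_mu fun k e => h k e ▸ one_ne_zero]; simp
  rw [← nonsing_inv_mul_cancel_left _ L h3.isUnit, h2, Matrix.mul_smul, Matrix.mul_one] at h1 ⊢
  have := h1 0 0 fun k => k rfl
  rw [Matrix.smul_apply, inv_diag h4 h3] at this
  rw [(mul_eq_zero.1 this).resolve_right (inv_ne_zero (UT.diag_ne h4 h3 0)), zero_smul]

theorem rec_mu {x : Ix (r + 1) g → ℂ} {M : Mx (r + 1)} (h : ∀ k e, (P275BC.mt x k e).det = 1)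
    (h1 : UT M) (h2 : ∏ a, M a a = 1) (h3 : ∀ a b, (a, b) ≠ 0 → mu x b a = M b a) : mu x = M := by
  ext b a
  by_cases e : (a, b) = 0
  · obtain ⟨rfl, rfl⟩ := Prod.mk_eq_zero.1 e
    refine (mem_Rt h2 h fun a b l l' => (h3 a b l').trans ?_).2.2 0
    rcases l.eq_or_lt with rfl | l
    · rw [diagonal_apply_eq]
    · rw [h1 _ _ l, diagonal_apply_ne _ l.ne']
  · exact h3 a b e

theorem par_RF {S : Set (κ → ℂ)} {v : (κ → ℂ) → Mx (r + 1)} {e m : ℕ} {y : κ ⊕ Ix (r + 1) g → ℂ}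
    (hp : Par e S (y ∘ inl)) (hv : MS (PlS κ) v) (ht : ∀ p ∈ S, UT (v p) ∧ Gnc fun a => v p a a)
    (hd : m + 2 * g + (r + 1) ^ 2 = e + 2 * g * (r + 1) ^ 2 + 1) (hy : y ∈ RF g S v) :
    Par m (RF g S v) y := by
  refine (par_fam (n := r + 1) (d := m) (v := v) r.succ_pos (fun p => p ≠ 0) hp
    (fun a b => pl_an (hv a b) _) hy.2.1 (irr (ht _ hy.1).2 (rf_rt hy (ht _ hy.1).1))
    (tr_mu hy.2.1 (hy.2.2 ▸ (ht _ hy.1).1)) ?_ fun a b _ => by rw [hy.2.2]).congr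
    (Eventually.of_forall fun z => and_congr_right fun k => and_congr_right fun k' =>
      ⟨rec_mu k' (ht _ k).1 (ht _ k).2.1, fun k'' a b _ => by rw [k'']⟩)
  have : 0 < (r + 1) ^ 2 := by positivity
  rw [Fintype.card_subtype_compl, Fintype.card_subtype_eq, Fintype.card_prod, Fintype.card_fin,
    ← sq]
  omega

/-- analytic submersions have local sections -/
theorem ex_rinv {E F : Type} [NormedAddCommGroup E] [NormedSpace ℂ E] [FiniteDimensional ℂ E]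
    [NormedAddCommGroup F] [NormedSpace ℂ F] [FiniteDimensional ℂ F] {Φ : E → F} {x : E}
    (h : AnalyticAt ℂ Φ x) (h' : Surjective (fderiv ℂ Φ x)) : ∃ σ : F → E,
      AnalyticAt ℂ σ (Φ x) ∧ σ (Φ x) = x ∧ ∀ᶠ z in 𝓝 (Φ x), Φ (σ z) = z := by
  let A : E →ₗ[ℂ] F := fderiv ℂ Φ x
  obtain ⟨L, hL⟩ := A.ker.subtype.exists_leftInverse_of_injective (Submodule.ker_subtype _)
  let L' : E →L[ℂ] A.ker := LinearMap.toContinuousLinearMap L
  obtain ⟨G, g1, g2, g3⟩ := exists_inv (h.prod (L'.analyticAt x)) (by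
    rw [(h.differentiableAt.hasFDerivAt.prodMk L'.hasFDerivAt).fderiv, injective_iff_map_eq_zero]
    exact fun v hv => congrArg Subtype.val ((LinearMap.congr_fun hL
      ⟨v, congrArg Prod.fst hv⟩).symm.trans (congrArg Prod.snd hv))) (by
    rw [← A.finrank_range_add_finrank_ker, LinearMap.range_eq_top.2 h', finrank_top, finrank_prod])
  exact ⟨fun z => G (z, L' x), g1.fun_comp (f := fun z => (z, L' x))
    (analyticAt_id.prod analyticAt_const), g2.self_of_nhds,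
    (((Continuous.prodMk_left _).tendsto _).eventually g3).mono fun z l => congrArg Prod.fst l⟩

/-- the parameter can be moved -/
theorem rf_lift {S : Set (κ → ℂ)} {v : (κ → ℂ) → Mx (r + 1)} {y : κ ⊕ Ix (r + 1) g → ℂ}
    (hv : MS (PlS κ) v) (ht : ∀ p ∈ S, UT (v p) ∧ Gnc fun a => v p a a) (hy : y ∈ RF g S v) :
    ∃ σ : (κ → ℂ) → Ix (r + 1) g → ℂ, AnalyticAt ℂ σ (y ∘ inl) ∧ σ (y ∘ inl) = y ∘ inr ∧
      ∀ᶠ p in 𝓝 (y ∘ inl), p ∈ S → Sum.elim p (σ p) ∈ RF g S v := by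
  obtain ⟨h1, h2⟩ := subm r.succ_pos (fun p => p ≠ 0) hy.2.1
    (irr (ht _ hy.1).2 (rf_rt hy (ht _ hy.1).1)) (tr_mu hy.2.1 (hy.2.2 ▸ (ht _ hy.1).1))
  obtain ⟨σ, k1, k2, k3⟩ := ex_rinv h1 h2
  let V : (κ → ℂ) → _ := fun p => ((fun q : {q : Fin (r + 1) × Fin (r + 1) // q ≠ 0} =>
    v p q.1.2 q.1.1), fun _ : Fin g × Bool => (1 : ℂ))
  have h3 : AnalyticAt ℂ V (y ∘ inl) :=
    (AnalyticAt.pi fun q => pl_an (hv _ _) _).prod analyticAt_const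
  rw [show Phi _ (y ∘ inr) = V (y ∘ inl) from Prod.ext (funext fun q => by simp [Phi, V, hy.2.2])
    (funext fun q => hy.2.1 _ _)] at k1 k2 k3
  refine ⟨fun p => σ (V p), k1.fun_comp h3, k2, (h3.continuousAt.eventually k3).mono
    fun p l m => ?_⟩
  have h4 := fun k e => congrFun (congrArg Prod.snd l) (k, e)
  exact ⟨m, h4, rec_mu h4 (ht _ m).1 (ht _ m).2.1 fun a b e =>
    congrFun (congrArg Prod.fst l) ⟨(a, b), e⟩⟩

/-- **The family theorem.** -/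
theorem fam {σ : Fin (r + 1) → Fin (r + 1)} (hσ : ∀ a, σ (σ a) = σ a)
    {a : Mq (Fin (r + 1)) → Mq (Fin (r + 1)) → (κ → ℂ) → κ → ℂ} (ha : Act (Wσ σ) a)
    {S : Set (κ → ℂ)} {v : (κ → ℂ) → Mx (r + 1)} {e m : ℕ} (hS : LZ S) (hp : ∀ p ∈ S, Par e S p)
    (hv : MS (PlS κ) v) (hi : ∀ h, Gp (Wσ σ) h → ∀ p ∈ S, a h h⁻¹ p ∈ S ∧
      v (a h h⁻¹ p) = h * v p * h⁻¹) (ht : ∀ p ∈ S, UT (v p) ∧ Gnc fun a => v p a a)
    (hd : m + 2 * g + (r + 1) ^ 2 = e + 2 * g * (r + 1) ^ 2 + 1) :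
    FD (· ∘ inr) (Wσ σ) (cA a) m (RF g S v) := by
  refine ⟨ha.cA, lz_RF hS hv, fun h k y hy => ⟨(hi h k _ hy.1).1, fun j e => ?_, ?_⟩, ?_,
    fun y hy => par_RF (hp _ hy.1) hv ht hd hy⟩
  · rw [cA, elim_comp_inr, mt_cjx, det_cj k.2, hy.2.1]
  · rw [cA, elim_comp_inr, elim_comp_inl, mu_cjx k.2, hy.2.2, (hi h k _ hy.1).2]
  obtain ⟨χ, k1, k2⟩ := ex_frm hσ (A := cA (g := g) a)
    (p := fun y (j : Fin g × Bool) => P275BC.mt (y ∘ inr) j.1 j.2)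
    (fun j _ _ => pl_crd _) fun _ _ _ _ => rfl
  refine ⟨χ, k1, fun y hy => ?_⟩
  obtain ⟨F, b, k3, k4, k5⟩ := k2 y (cyc_of_irr fun E hE =>
    irr (ht _ hy.1).2 (rf_rt hy (ht _ hy.1).1) E fun k e => hE (k, e))
  exact ⟨F, b, k3, k4, fun y y' e => k5 y y' (by simp only [e])⟩

end Vale.Agent.P275BW
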