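import Vale.Agent.P275BW.Fam
import Vale.Agent.P275XB.Inst
import Vale.Agent.P275NB.Bet
import Vale.Agent.P275RL.Mat

/-!
# P275, the Betti spaces with nilpotent residue and their bundles are varieties
-/

open scoped Manifold ContDiff Real Matrix.Norms.Operator
open Set Filter Topology Function Matrix Module Sum
open P275BC hiding mt
open P275QV Vale.Agent.P275OM
open Vale.Agent.P275Z hiding mu
open Vale.Agent.P275ST (zeta dimR)
open Vale.Agent.P275XB (Ok ix prim mu_ix dimZ)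
open Vale.Agent.P275RL (ex exP ex_eq ann_tri ex_tri ex_conj)
open Vale.Agent.P275RH (cwd)

set_option linter.unusedSectionVars false

noncomputable section

namespace Vale.Agent.P275BW

variable {n g r k : ℕ} {d : ℤ} {ι J : Type} [Fintype ι] [Fintype J]

theorem finrank_supp {E : Type} [AddCommGroup E] [Module ℂ E] (L : E ≃ₗ[ℂ] (ι → ℂ)) (P : ι → Prop)
    [DecidablePred P] {q : Submodule ℂ E} (h : ∀ x, x ∈ q ↔ ∀ i, ¬ P i → L x i = 0) :
    finrank ℂ q = Fintype.card {i // P i} := by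
  rw [← finrank_fintype_fun_eq_card ℂ]
  refine (LinearEquiv.ofBijective (LinearMap.funLeft ℂ ℂ Subtype.val ∘ₗ L.toLinearMap ∘ₗ q.subtype)
    ⟨(injective_iff_map_eq_zero _).2 fun x hx => Subtype.ext (L.map_eq_zero_iff.1 (funext fun i =>
      if e : P i then congrFun hx ⟨i, e⟩ else (h _).1 x.2 i e)), fun f =>
      ⟨⟨L.symm fun i => if e : P i then f ⟨i, e⟩ else 0, (h _).2 fun i e => by simp [e]⟩,
        funext fun i => by simp [LinearMap.funLeft_apply, i.2]⟩⟩).finrank_eq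

/-- the entries of a matrix -/
def vc (n : ℕ) : Mx n ≃ₗ[ℂ] (Fin n × Fin n → ℂ) :=
  (ofLinearEquiv ℂ).symm.trans (LinearEquiv.curry ℂ ℂ _ _).symm

/-- the places of the roots from `k` on -/
def Pk (n k : ℕ) (p : Fin n × Fin n) : Prop := ∃ j : Fin (nr n), k ≤ j ∧ (ra j, rb j) = p

instance : DecidablePred (Pk n k) := Classical.decPred _

theorem mem_nk {R : Mx n} : R ∈ nk n k ↔ ∀ p, ¬ Pk n k p → R p.1 p.2 = 0 := by
  refine ⟨fun h p e => (le_or_gt p.2 p.1).elim (h.1 _ _) fun l => ?_, fun h =>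
    ⟨fun a b l => h (a, b) ?_, fun j l => h (ra j, rb j) ?_⟩⟩
  · obtain ⟨j, h1, h2⟩ := exists_root l
    exact h1 ▸ h2 ▸ h.2 j (not_le.1 fun l => e ⟨j, l, Prod.ext h1 h2⟩)
  · rintro ⟨j, -, ⟨⟩⟩
    exact (ra_lt j).not_ge l
  · exact fun ⟨i, l', e⟩ => (root_inj (congrArg Prod.fst e) (congrArg Prod.snd e) ▸ l').not_gt l

theorem card_Pk (hk : k ≤ nr n) : Fintype.card {p // Pk n k p} + k = nr n := by
  rw [← Fintype.card_congr (Equiv.ofBijective (fun j : {j : Fin (nr n) // ¬ (j : ℕ) < k} =>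
    (⟨_, j.1, not_lt.1 j.2, rfl⟩ : {p // Pk n k p})) ⟨fun i j e => Subtype.ext (root_inj
      (congrArg (·.1.1) e) (congrArg (·.1.2) e)), fun ⟨_, j, l, e⟩ =>
      ⟨⟨j, l.not_gt⟩, Subtype.ext e⟩⟩), Fintype.card_subtype_compl, Fintype.card_fin,
    Fintype.card_subtype, Fin.card_filter_val_lt]
  omega

theorem two_nr (n : ℕ) : 2 * nr n + n = n ^ 2 := by
  have h1 : nr n = n.choose 2 := by
    have := Finset.card_product_filter_lt (s := (Finset.univ : Finset (Fin n)))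
    rw [Finset.card_univ, Fintype.card_fin] at this
    rw [← this]
    exact Finset.card_bij (fun p _ => (OrderDual.ofDual (ofLex p).2, (ofLex p).1))
      (fun p h => by simpa [roots] using h) (fun p _ q _ e => Prod.ext (congrArg Prod.snd e)
        (congrArg Prod.fst e)) fun p h => ⟨toLex (p.2, .toDual p.1), by simpa [roots] using h, rfl⟩
  rw [h1, Nat.choose_two_right, Nat.mul_div_cancel' (Nat.even_mul_pred_self n).two_dvd]
  rcases n with _ | n <;> simp [sq, mul_add]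

/-- the units of `H` are the scalar multiples of a group of dimension `w` with frames -/
def Adm (H : Subalgebra ℂ (Mx n)) (w : ℕ) : Prop :=
  H ≤ bor n ∧ ∃ σ : Fin n → Fin n, (∀ a, σ (σ a) = σ a) ∧ finrank ℂ (Wσ σ) = w ∧
    (∀ h, Gp (Wσ σ) h → h ∈ H) ∧ ∀ h ∈ H, h.det ≠ 0 → ∃ c : ℂ, c ≠ 0 ∧ Gp (Wσ σ) (c • h)

theorem gp_smul {σ : Fin n → Fin n} {h : Mx n} (h1 : h ∈ bor n) (h2 : h.det ≠ 0) (a : Fin n)
    (e : ∀ b, h (σ b) (σ b) = h a a) : ∃ c : ℂ, c ≠ 0 ∧ Gp (Wσ σ) (c • h) :=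
  have := UT.diag_ne (mem_bor.1 h1) h2 a
  ⟨_, inv_ne_zero this, gp_Wσ.2 ⟨ut_smul _ (mem_bor.1 h1), fun b => by simp [e, this], by
    rw [det_smul]; exact mul_ne_zero (pow_ne_zero _ (inv_ne_zero this)) h2⟩⟩

theorem adm_bor (hn : n ≠ 0) : Adm (bor n) (nr n + (n - 1)) := by
  obtain ⟨r, rfl⟩ := Nat.exists_eq_add_one_of_ne_zero hn
  refine ⟨le_rfl, fun _ => 0, fun _ => rfl, ?_, fun h k => mem_bor.2 (gp_Wσ.1 k).1,
    fun h k k' => gp_smul k k' 0 fun _ => rfl⟩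
  rw [finrank_supp (q := Wσ fun _ => 0) (vc (r + 1)) (fun p => p.1 ≤ p.2 ∧ p ≠ 0) fun x => ⟨fun h p e => ?_, fun h =>
    ⟨fun a b l => h (a, b) fun e => e.1.not_gt l, fun _ => h 0 fun e => e.2 rfl⟩⟩]
  · have h1 := card_erase (fun p : Fin (r + 1) × Fin (r + 1) => p.1 ≤ p.2) le_rfl
    have h2 := card_Tr (r + 1)
    have h3 := two_nr (r + 1)
    change 2 * Fintype.card {p : Fin (r + 1) × Fin (r + 1) // p.1 ≤ p.2} = _ at h2
    have : (r + 1) * (r + 1 + 1) = (r + 1) ^ 2 + (r + 1) := by ring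
    omega
  · rcases not_and_or.1 e with e | e
    exacts [h.1 _ _ (not_le.1 e), not_not.1 e ▸ h.2 0]

theorem adm_uni (hn : n ≠ 0) : Adm (uni n) (nr n) := by
  refine ⟨uni_le, id, fun _ => rfl, ?_, fun h k => ⟨mem_bor.2 (gp_Wσ.1 k).1, fun a b =>
    ((gp_Wσ.1 k).2.1 a).trans ((gp_Wσ.1 k).2.1 b).symm⟩,
    fun h k k' => gp_smul k.1 k' ⟨0, hn.bot_lt⟩ fun _ => k.2 _ _⟩
  rw [finrank_supp (q := Wσ id) (vc _) (Pk n 0) fun x => Iff.trans ⟨fun h => ⟨fun a b l =>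
    l.eq_or_lt.elim (fun e => e ▸ h.2 b) (h.1 a b), fun _ e => absurd e (Nat.not_lt_zero _)⟩,
    fun h => ⟨fun a b l => h.1 a b l.le, fun a => h.1 a a le_rfl⟩⟩ mem_nk]
  exact card_Pk (Nat.zero_le _)

/-- the character of weight `m` -/
def ch (m : Fin n → ℤ) (h : Mx n) : ℂ := ∏ a, h a a ^ m a

/-- parameters: the residue and the fibre coordinates -/
abbrev KB (n : ℕ) (J : Type) : Type := (Fin n × Fin n) ⊕ J

/-- the residue of a parameter -/
def rs (p : KB n J → ℂ) : Mx n := of fun a b => p (inl (a, b))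

/-- the action on the parameters -/
def aB (m : J → Fin n → ℤ) (h h' : Mx n) (p : KB n J → ℂ) : KB n J → ℂ :=
  Sum.elim (fun q => (h * rs p * h') q.1 q.2) fun j =>
    (∏ a, h' a a ^ (m j a).toNat * h a a ^ (-m j a).toNat) * p (inr j)

theorem aB_inr {h : Mx n} (h1 : UT h) (h2 : h.det ≠ 0) (m : J → Fin n → ℤ) (p : KB n J → ℂ)
    (j : J) : aB m h h⁻¹ p (inr j) = ch (m j) h⁻¹ * p (inr j) := by
  refine congrArg (· * _) (Finset.prod_congr rfl fun a _ => ?_)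
  rw [inv_diag h1 h2, ← inv_inv (h a a), inv_inv (h a a)⁻¹, inv_pow _ (-m j a).toNat,
    ← zpow_natCast, ← zpow_natCast, ← div_eq_mul_inv,
    ← zpow_sub₀ (inv_ne_zero (UT.diag_ne h1 h2 a)), Int.toNat_sub_toNat_neg]

theorem ch_mul (m : Fin n → ℤ) {h h' : Mx n} (k : UT h) (k' : UT h') :
    ch m (h * h') = ch m h * ch m h' := by
  simp only [ch, k.mul_diag k', mul_zpow, Finset.prod_mul_distrib]

theorem ch_smul {m : Fin n → ℤ} (hm : ∑ a, m a = 0) {c : ℂ} (hc : c ≠ 0) (h : Mx n) :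
    ch m (c • h) = ch m h := by
  have : ∀ s : Finset (Fin n), ∏ a ∈ s, c ^ m a = c ^ ∑ a ∈ s, m a := fun s => by
    induction s using Finset.induction_on with
    | empty => simp
    | insert a s l ih => rw [Finset.prod_insert l, Finset.sum_insert l, ih, zpow_add₀ hc]
  simp [ch, mul_zpow, Finset.prod_mul_distrib, this, hm]

theorem ch_ne (m : Fin n → ℤ) {h : Mx n} (h1 : UT h) (h2 : h.det ≠ 0) : ch m h ≠ 0 :=
  Finset.prod_ne_zero_iff.2 fun a _ => zpow_ne_zero _ (UT.diag_ne h1 h2 a)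

theorem act_aB (σ : Fin n → Fin n) (m : J → Fin n → ℤ) : Act (Wσ σ) (aB m) where
  gmul := gmul_Wσ
  ginv := ginv_Wσ
  one x := funext fun i => by rcases i with i | i <;> simp [aB, rs]
  mul g h k k' x := funext fun i => by
    have a := gp_Wσ.1 k
    have b := gp_Wσ.1 k'
    rcases i with i | i
    · change (_ * _ * _ : Mx n) _ _ = (g * (h * rs x * h⁻¹) * _ : Mx n) _ _
      simp only [Matrix.mul_inv_rev, Matrix.mul_assoc]
    · rw [aB_inr (a.1.mul b.1) (gmul_Wσ _ _ k k').2, aB_inr a.1 k.2, aB_inr b.1 k'.2,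
        Matrix.mul_inv_rev, ch_mul _ (ut_inv b.1 k'.2) (ut_inv a.1 k.2)]
      ring
  pol Y S h h' x k k' e := by
    rintro (i | i)
    · exact (k.mul (N := fun y => rs (x y)) fun _ _ => e _).mul k' _ _
    · exact s_mul (s_prod _ fun a => s_mul (pow_mem (k' a a) _) (pow_mem (k a a) _)) (e _)

/-- the local monodromy as a polynomial -/
def vB (d : ℤ) (p : KB n J → ℂ) : Mx n :=
  zeta n d • Polynomial.aeval (rs p) (exP (fun _ : Fin n => 0) (-(2 * π * Complex.I)))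

theorem vB_eq {p : KB n J → ℂ} (h : rs p ∈ nk n k) : vB d p = mon d (rs p) :=
  congrArg (zeta n d • ·) (ex_eq (by simpa only [h.1 _ _ le_rfl] using ann_tri (nk_bor h)) _).symm

theorem ms_aeval {Y : Type} {S : Subalgebra ℂ (Y → ℂ)} {M : Y → Mx n} (h : MS S M)
    (P : Polynomial ℂ) : MS S fun y => Polynomial.aeval (M y) P := by
  induction P using Polynomial.induction_on with
  | C a => simpa only [Polynomial.aeval_C] using MS.const S _
  | add p q hp hq => simpa only [map_add] using hp.add hq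
  | monomial k a ih => simpa only [pow_succ, ← mul_assoc, map_mul, Polynomial.aeval_X] using ih.mul h

theorem gen_nk [h : Ok g n d] {R : Mx n} (hR : R ∈ nk n k) : Gen d R := by
  have := P275NB.gen_zero (n := n) h.cop
  rwa [Gen, show (0 : Mx n).charpoly = R.charpoly by
    simp [charpoly_of_isUpperTriangular R (nk_bor hR), hR.1 _ _ le_rfl]] at this

variable {q : Submodule ℂ (Mx n)}

/-- the parameter of a framed object with fibre coordinates -/
def pa (z : BFr g d q × (J → ℂ)) : KB n J → ℂ := Sum.elim (fun p => z.1.1.1 p.1 p.2) z.2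

/-- the coordinates -/
def epB (z : BFr g d q × (J → ℂ)) : KB n J ⊕ Ix n g → ℂ :=
  Sum.elim (pa z) (ix fun s => (z.1.1.2 s).1)

theorem epB_emb : IsEmbedding (epB : BFr g d q × (J → ℂ) → _) := by
  have h1 : IsEmbedding fun z : BFr g d q × (J → ℂ) => ((z.1.1.1, fun s => (z.1.1.2 s).1), z.2) :=
    ((IsEmbedding.id.prodMap (.piMap fun _ => .subtypeVal)).comp
      (IsEmbedding.subtypeVal (X := Mx n × Tup g n))).prodMap .id
  refine IsEmbedding.of_comp (g := fun y => ((rs (y ∘ inl), fun s : Fin g × Bool =>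
    P275BC.mt (y ∘ inr) s.1 s.2), fun j => y (inl (inr j)))) (continuous_pi ?_)
    (.prodMk (.prodMk (continuous_matrix fun a b => continuous_apply (inl (inl (a, b))))
      (continuous_pi fun s => continuous_matrix fun a b => continuous_apply (inr (s.1, s.2, a, b))))
      (continuous_pi fun _ => continuous_apply _)) h1
  rintro ((i | i) | i)
  exacts [h1.continuous.fst.fst.matrix_elem _ _, (continuous_apply i).comp continuous_snd,
    ((continuous_apply _).comp h1.continuous.fst.snd).matrix_elem _ _]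

theorem mu_epB (z : BFr g d q × (J → ℂ)) : mu (epB z ∘ inr) = mon d z.1.1.1 :=
  (mu_ix _).trans ((P275NB.wv_cwd _).symm.trans z.1.2.2.2)

variable (g d k) in
/-- framed objects with fibre coordinates in `T` -/
abbrev EB (T : Set (KB n J → ℂ)) : Type := {z : BFr g d (nk n k) × (J → ℂ) // pa z ∈ T}

/-- the parameters with residue in the `k`-th ideal -/
def nkJ (n k : ℕ) (J : Type) : Submodule ℂ (KB n J → ℂ) :=
  (nk n k).comap ((vc n).symm.toLinearMap ∘ₗ LinearMap.funLeft ℂ ℂ inl)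

theorem mem_nkJ {p : KB n J → ℂ} : p ∈ nkJ n k J ↔ rs p ∈ nk n k := Iff.rfl

theorem finrank_nkJ (hk : k ≤ nr n) : finrank ℂ (nkJ n k J) + k = nr n + Fintype.card J := by
  classical
  rw [finrank_supp (.refl ℂ _) (Sum.elim (Pk n k) fun _ => True) fun x => mem_nk.trans
    ⟨fun h i e => by rcases i with i | i; exacts [h i e, absurd trivial e], fun h i => h (inl i)⟩,
    Fintype.card_congr Equiv.subtypeSum, Fintype.card_sum, ← card_Pk hk]
  exact (add_right_comm _ _ _).trans (congrArg _ (Fintype.card_congr (Equiv.subtypeUnivEquiv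
    fun _ => trivial)))

theorem lz_nkJ : LZ (nkJ n k J : Set (KB n J → ℂ)) := by
  convert LZ.univ.eqs (J := {p // ¬ Pk n k p}) (fun j => Reg.coord (inl j.1)) fun _ => Reg.const 0
    using 1
  ext x
  simp [mem_nkJ, mem_nk, rs]

/-- the parameters in `T` with residue in the `k`-th ideal -/
abbrev SB (k : ℕ) (T : Set (KB n J → ℂ)) : Set (KB n J → ℂ) := (nkJ n k J : Set _) ∩ T

variable {T : Set (KB n J → ℂ)}

theorem range_epB [Ok g n d] :
    range (fun z : EB g k d T => epB z.1) = RF g (SB k T) (vB d) := by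
  refine Subset.antisymm (range_subset_iff.2 fun z => ⟨⟨z.1.1.2.1, z.2⟩, fun k e =>
    (z.1.1.1.2 (k, e)).2, (mu_epB _).trans (vB_eq (p := pa z.1) z.1.1.2.1).symm⟩) fun y hy => ?_
  have e : ∀ z : BFr g d (nk n k), z.1.1 = rs (y ∘ inl) → pa (z, fun j => y (inl (inr j))) =
    y ∘ inl := fun z e => funext fun i => by rcases i with i | i; exacts [by simp [pa, e, rs], rfl]
  refine ⟨⟨(⟨(rs (y ∘ inl), fun s => ⟨_, hy.2.1 s.1 s.2⟩), hy.1.1, gen_nk (g := g) hy.1.1,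
    (P275NB.wv_cwd _).trans ((mu_ix _).symm.trans (hy.2.2.trans (vB_eq hy.1.1)))⟩,
    fun j => y (inl (inr j))), mem_of_eq_of_mem (e _ rfl) hy.1.2⟩, funext fun i => ?_⟩
  rcases i with i | i
  exacts [congrFun (e _ rfl) i, rfl]

theorem fdB [h : Ok g n d] {σ : Fin n → Fin n} (hσ : ∀ a, σ (σ a) = σ a) {m : J → Fin n → ℤ}
    {e : ℕ} (hT : LZ T) (hp : ∀ p ∈ SB k T, Par e (SB k T) p)
    (hi : ∀ h, Gp (Wσ σ) h → ∀ p ∈ SB k T, aB m h h⁻¹ p ∈ T) :
    FD (· ∘ inr) (Wσ σ) (cA (aB m)) (e + dimZ g n) (RF g (SB k T) (vB d)) := by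
  obtain ⟨r, rfl⟩ := Nat.exists_eq_add_one_of_ne_zero h.hn
  refine fam hσ (act_aB σ m) (lz_nkJ.inter hT) hp
    (MS.smul (s_const _ _) (ms_aeval (fun _ _ => pl_crd _) _)) (fun a l p hp => ?_)
    (fun p hp => ?_) ?_
  · have h1 := mem_bor.2 (gp_Wσ.1 l).1
    have h2 : rs (aB m a a⁻¹ p) ∈ nk _ k := mul_mem_nk h1 (inv_mem_bor h1 l.2) hp.1
    refine ⟨⟨h2, hi a l p hp⟩, ?_⟩
    rw [vB_eq h2, vB_eq hp.1, mon, mon, Matrix.mul_smul, Matrix.smul_mul]
    exact congrArg (_ • ·) (ex_conj _ l.2 _)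
  · have h0 : rs p ∈ nk _ k := hp.1
    have h1 := ex_tri (nk_bor h0) (-(2 * π * Complex.I))
    rw [vB_eq h0]
    refine ⟨ut_smul _ fun a b l => h1.1 l, ?_⟩
    rw [show (fun a => mon d (rs p) a a) = fun _ => zeta (r + 1) d from funext fun a =>
      (congrArg (zeta (r + 1) d * ·) (h1.2 a)).trans (by simp [h0.1 a a le_rfl])]
    exact gnc_root (prim g)
  · obtain ⟨g, rfl⟩ := Nat.exists_eq_add_one_of_ne_zero h.hg
    rw [dimZ, dimR, show (r + 1) * (r + 1) - 1 = r * (r + 2) from Nat.sub_eq_of_eq_add (by ring),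
      show (r + 1) ^ 2 - 1 = r * (r + 2) from Nat.sub_eq_of_eq_add (by ring), Nat.add_sub_cancel]
    ring

/-- change of the frame by a unit of `H` and scaling of the fibre coordinates -/
def RB (H : Subalgebra ℂ (Mx n)) (m : J → Fin n → ℤ) (e : J → ℤ)
    (z z' : BFr g d q × (J → ℂ)) : Prop :=
  ∃ h ∈ H, h.det ≠ 0 ∧ ∃ t : ℂ, t ≠ 0 ∧ z'.1.1.1 = h⁻¹ * z.1.1.1 * h ∧ Cj h z.1.1.2 z'.1.1.2 ∧
    ∀ j, z'.2 j = t ^ e j * (ch (m j) h * z.2 j)

/-- the weights of the scaling on all coordinates -/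
def wB (n g : ℕ) (e : J → ℤ) : KB n J ⊕ Ix n g → ℤ := Sum.elim (Sum.elim 0 e) 0

theorem epB_eq {m : J → Fin n → ℤ} {e : J → ℤ} {z z' : BFr g d q × (J → ℂ)} {h : Mx n}
    (h1 : UT h) (h2 : h.det ≠ 0) (t : ℂ) :
    epB z' = sc (wB n g e) t (cA (aB m) h h⁻¹ (epB z)) ↔ z'.1.1.1 = h * z.1.1.1 * h⁻¹ ∧
      (∀ s, (z'.1.1.2 s).1 = h * (z.1.1.2 s).1 * h⁻¹) ∧
      ∀ j, z'.2 j = t ^ e j * (ch (m j) h⁻¹ * z.2 j) := by
  simp only [funext_iff, Sum.forall, Prod.forall, sc, wB, elim_inl, elim_inr, Pi.zero_apply,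
    zpow_zero, one_mul, cA, aB_inr h1 h2, ← Matrix.ext_iff]
  exact and_assoc.trans (and_congr Iff.rfl and_comm)

variable {H : Subalgebra ℂ (Mx n)} {m : J → Fin n → ℤ} {e : J → ℤ} {w : ℕ}

theorem rb_iff {σ : Fin n → Fin n} (h1 : ∀ h, Gp (Wσ σ) h → h ∈ H)
    (h2 : ∀ h ∈ H, h.det ≠ 0 → ∃ c : ℂ, c ≠ 0 ∧ Gp (Wσ σ) (c • h)) (hm : ∀ j, ∑ a, m j a = 0)
    {z z' : BFr g d q × (J → ℂ)} : RB H m e z z' ↔
      ∃ h t, Gp (Wσ σ) h ∧ t ≠ 0 ∧ epB z' = sc (wB n g e) t (cA (aB m) h h⁻¹ (epB z)) := by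
  refine ⟨fun ⟨h, a, b, t, c, k1, k2, k3⟩ => ?_, fun ⟨h, t, a, b, c⟩ => ?_⟩
  · obtain ⟨s, l, l'⟩ := h2 h a b
    have l2 := ginv_Wσ _ l'
    have l3 : ∀ M : Mx n, (s • h)⁻¹ * M * (s • h) = h⁻¹ * M * h := fun M => by
      rw [inv_eq_right_inv (B := s⁻¹ • h⁻¹) (by simp [smul_smul, l, mul_nonsing_inv _ b.isUnit])]
      simp [smul_smul, l]
    refine ⟨_, t, l2, c, (epB_eq (gp_Wσ.1 l2).1 l2.2 t).2 ?_⟩
    simp only [nonsing_inv_nonsing_inv _ l'.unit, l3, ch_smul (hm _) l]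
    exact ⟨k1, k2, k3⟩
  · have l := ginv_Wσ _ a
    refine ⟨_, h1 _ l, l.2, t, b, ?_⟩
    simp only [Cj, nonsing_inv_nonsing_inv _ a.unit]
    exact (epB_eq (gp_Wσ.1 a).1 a.2 t).1 c

variable (g d k) in
/-- the quotient -/
def QB (H : Subalgebra ℂ (Mx n)) (m : J → Fin n → ℤ) (e : J → ℤ) (T : Set (KB n J → ℂ)) : Type :=
  Quot fun z z' : EB g k d T => RB H m e z.1 z'.1

instance : TopologicalSpace (QB g k d H m e T) := inferInstanceAs (TopologicalSpace (Quot _))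

/-- the point of the quotient -/
def ptB (H : Subalgebra ℂ (Mx n)) (m : J → Fin n → ℤ) (e : J → ℤ) (z : EB g k d T) :
    QB g k d H m e T := Quot.mk _ z

theorem quot_iff {X : Type} {r : X → X → Prop} {ν : Type} [Fintype ν] [DecidableEq ν]
    {W : Submodule ℂ (Mq ν)} {A : Mq ν → Mq ν → (ι → ℂ) → ι → ℂ} (hA : Act W A) {ε : X → ι → ℂ}
    (h : ∀ a b, r a b ↔ Ob W A (ε a) (ε b)) (a b : X) : Quot.mk r a = Quot.mk r b ↔ r a b :=
  Quot.eq.trans (Equivalence.eqvGen_iff ⟨fun a => (h a a).2 (hA.refl _),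
    fun k => (h _ _).2 (hA.symm ((h _ _).1 k)),
    fun k l => (h _ _).2 (hA.trans ((h _ _).1 k) ((h _ _).1 l))⟩)

/-- the invariance of `T` -/
def InvT (k : ℕ) (H : Subalgebra ℂ (Mx n)) (m : J → Fin n → ℤ) (e : J → ℤ)
    (T : Set (KB n J → ℂ)) : Prop :=
  ∀ h ∈ H, h.det ≠ 0 → ∀ t : ℂ, t ≠ 0 → ∀ p ∈ SB k T, ∀ p', rs p' = h⁻¹ * rs p * h →
    (∀ j, p' (inr j) = t ^ e j * (ch (m j) h * p (inr j))) → p' ∈ T

theorem InvT.aB {σ : Fin n → Fin n} (hi : InvT k H m e T) (h1 : ∀ h, Gp (Wσ σ) h → h ∈ H) (h : Mx n)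
    (l : Gp (Wσ σ) h) (p : KB n J → ℂ) (hp : p ∈ SB k T) : aB m h h⁻¹ p ∈ T :=
  hi _ (h1 _ (ginv_Wσ _ l)) (det_inv_ne l.2) 1 one_ne_zero p hp _
    (by rw [nonsing_inv_nonsing_inv _ l.unit]; rfl) fun j => by
      rw [aB_inr (gp_Wσ.1 l).1 l.2, _root_.one_zpow, one_mul]

variable [Ok g n d] {a D : ℕ}

/-- **Bundles without scaling.** -/
theorem bvB0 (hH : Adm H w) (hm : ∀ j, ∑ a, m j a = 0) (hT : LZ T)
    (hp : ∀ p ∈ SB k T, Par a (SB k T) p) (hi : InvT k H m 0 T) (hD : a + dimZ g n = D + w) :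
    Nonempty (BV (a + dimZ g n) D (fun z : EB g k d T => epB z.1) (ptB H m 0)) ∧
      ∀ z z' : EB g k d T, ptB H m 0 z = ptB H m 0 z' ↔ RB H m 0 z.1 z'.1 := by
  obtain ⟨-, σ, h1, rfl, h2, h3⟩ := hH
  have F := fdB (g := g) (d := d) h1 hT hp (hi.aB h2)
  have e : ∀ z z' : EB g k d T, RB H m 0 z.1 z'.1 ↔ Ob (Wσ σ) (cA (aB m)) (epB z.1) (epB z'.1) :=
    fun z z' => (rb_iff h2 h3 hm).trans (exists_congr fun h => by
      have : ∀ t x, sc (wB n g (0 : J → ℤ)) t x = x := fun t x => funext fun i => by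
        rcases i with (i | i) | i <;> simp [sc, wB]
      exact ⟨fun ⟨t, a, _, b⟩ => ⟨a, b.trans (this t _)⟩, fun ⟨a, b⟩ =>
        ⟨1, a, one_ne_zero, b.trans (this 1 _).symm⟩⟩)
  exact ⟨F.bv (epB_emb.comp .subtypeVal).isInducing (epB_emb.comp .subtypeVal).injective range_epB
    hD isQuotientMap_quot_mk fun z z' => (quot_iff F.act e z z').trans (e z z'), quot_iff F.act e⟩

/-- **Bundles with scaling.** -/
theorem bvB1 (hH : Adm H w) (hm : ∀ j, ∑ a, m j a = 0) (hT : LZ T)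
    (hp : ∀ p ∈ SB k T, Par a (SB k T) p) (hi : InvT k H m e T)
    (h0 : ∀ p ∈ SB k T, ∃ j, e j = 1 ∧ p (inr j) ≠ 0) (hD : a + dimZ g n = D + (w + 1)) :
    Nonempty (BV (a + dimZ g n) D (fun z : EB g k d T => epB z.1) (ptB H m e)) ∧
      ∀ z z' : EB g k d T, ptB H m e z = ptB H m e z' ↔ RB H m e z.1 z'.1 := by
  obtain ⟨-, σ, h1, rfl, h2, h3⟩ := hH
  have s1 : ∀ t (x : KB n J ⊕ Ix n g → ℂ), sc (wB n g e) t x ∘ inr = x ∘ inr := fun t x =>
    funext fun i => by simp [sc, wB]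
  have s2 : ∀ t (x : KB n J ⊕ Ix n g → ℂ), rs (sc (wB n g e) t x ∘ inl) = rs (x ∘ inl) :=
    fun t x => Matrix.ext fun a b => by simp [sc, wB, rs]
  have F := (fdB (g := g) (d := d) h1 hT hp (hi.aB h2)).ext (e := wB n g e)
    (fun t _ h _ x => funext fun i => by
      rcases i with (i | i) | i
      · simp only [cA, aB, s2, elim_inl]
        simp [sc, wB]
      · simp [cA, aB, sc, wB, mul_left_comm]
      · simp only [cA, s1, elim_inr]
        simp [sc, wB]) s1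
    (fun t l x hx => ⟨⟨mem_nkJ.2 (s2 t x ▸ hx.1.1), hi 1 (one_mem _) (by simp) t l _ hx.1 _
      (by simp [s2]) fun j => by simp [sc, wB, ch]⟩, s1 t x ▸ hx.2.1, by
        rw [s1, hx.2.2, vB, vB, s2]⟩)
    fun x hx => let ⟨j, a, b⟩ := h0 _ hx.1; ⟨inl (inr j), a, b⟩
  have e : ∀ z z' : EB g k d T, RB H m e z.1 z'.1 ↔ Ob _ _ (epB z.1) (epB z'.1) :=
    fun z z' => (rb_iff h2 h3 hm).trans ob2.symm
  exact ⟨F.bv (epB_emb.comp .subtypeVal).isInducing (epB_emb.comp .subtypeVal).injective range_epB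
    (by rw [finrank_W2, hD]) isQuotientMap_quot_mk fun z z' => (quot_iff F.act e z z').trans (e z z'),
    quot_iff F.act e⟩

end Vale.Agent.P275BW
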