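import Vale.Agent.P275BW.Ms

/-!
# P275, families: the parameter is a submersion, the nilpotent fibre, base change
-/

open scoped Manifold ContDiff Real Matrix.Norms.Operator
open Set Filter Topology Function Matrix Module Sum
open P275BC (Ix mu UT Gnc)
open P275QV Vale.Agent.P275OM
open Vale.Agent.P275Z hiding mu
open Vale.Agent.P272.K (Cm)
open Vale.Agent.P281Z Vale.Agent.P275RG
open Vale.Agent.P275ST (dimR zeta)
open Vale.Agent.P275XB (Ok ix)
open Vale.Agent.P275RH (cwd)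
open Vale.Agent.P275RL (ex Lg Lg_tri Lg_eq Lg_ex_tri Lg_semi NRt ta ex_tri mon_eq)
open Vale.Agent.P275B (Vr bap pt_iff)

set_option linter.unusedSectionVars false

noncomputable section

namespace Vale.Agent.P275BW

variable {n g D D' a a' N : ℕ} {d : ℤ} {J J' : Type} [Fintype J] [Fintype J'] {U : Set (J → ℂ)}
  {t : (J → ℂ) → Fin n → ℂ} {U' : Set (J' → ℂ)} {t' : (J' → ℂ) → Fin n → ℂ}

/-- analytic local sections over the parameters -/
theorem ex_lift (hn : n ≠ 0) (hU : AdP U t) (z : MF g U t) : ∃ σ : (J → ℂ) → MF g U t,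
    σ z.1.1 = z ∧ AnalyticAt ℂ (fun w => epM (σ w)) z.1.1 ∧ ∀ᶠ w in 𝓝 z.1.1, (σ w).1.1 = w := by
  obtain ⟨r, rfl⟩ := Nat.exists_eq_add_one_of_ne_zero hn
  obtain ⟨σ, h1, h2, h3⟩ := rf_lift (S := SM U t) (v := rs) (fun _ _ => pl_crd _) (fun p hp =>
    ⟨hp.2.1, (funext hp.2.2).symm ▸ hU.gen _ hp.1⟩) (range_epM.le (mem_range_self z))
  obtain ⟨F, f1, f2⟩ := reg_ext hU.reg z.2.1
  let p : (J → ℂ) → KB (r + 1) J → ℂ := fun w => Sum.elim (fun q =>
    if q.1 = q.2 then F w q.1 else wv z.1.2 (cwd g) q.1 q.2) w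
  have p1 : AnalyticAt ℂ p z.1.1 := AnalyticAt.pi fun i => by
    rcases i with i | i
    · simp only [elim_inl]
      split_ifs
      exacts [analyticAt_pi_iff.1 f1 _, analyticAt_const]
    · exact an_coord _ _
  have p2 : p z.1.1 = epM z ∘ inl := funext fun i => by
    rcases i with ⟨a, b⟩ | i
    · simp only [p, elim_inl, f2.self_of_nhds z.2.1]
      split_ifs with l
      exacts [l ▸ (z.2.2.2 a).symm, rfl]
    · rfl
  rw [← p2] at h1 h2 h3
  have := Nonempty.intro z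
  have h4 : ∀ᶠ w in 𝓝 z.1.1, epM (invFun (epM : MF g U t → _) (Sum.elim (p w) (σ (p w)))) =
      Sum.elim (p w) (σ (p w)) := by
    filter_upwards [p1.continuousAt.eventually h3, f2, hU.opn.mem_nhds z.2.1] with w l1 l2 l3
    exact invFun_eq (range_epM.ge (l1 ⟨l3, fun a b e => (if_neg e.ne').trans
      (mem_bor.1 z.2.2.1 a b e), fun a => (if_pos rfl).trans (congrFun (l2 l3) a)⟩))
  refine ⟨_, epM_emb.injective (h4.self_of_nhds.trans (by rw [h2, p2, elim_comp_inl_inr])),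
    AnalyticAt.congr (AnalyticAt.pi fun i => ?_) (h4.mono fun _ => Eq.symm),
    h4.mono fun w l => funext fun j => congrFun l (inl (inr j))⟩
  rcases i with i | i
  exacts [analyticAt_pi_iff.1 p1 i, analyticAt_pi_iff.1 (h1.fun_comp p1) i]

variable (X : BV a D (epM : MF g U t → _) MF.pt)

/-- functions of the parameter with a local section are submersions -/
theorem sbm_par (hn : n ≠ 0) (hU : AdP U t) (x : MQ g U t) {f : (J → ℂ) → Cm N}
    {γ : Cm N → J → ℂ} (hf : AnalyticAt ℂ f x.par) (hγ : AnalyticAt ℂ γ (f x.par))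
    (e : γ (f x.par) = x.par) (e' : ∀ᶠ s in 𝓝 (f x.par), f (γ s) = s) :
    Sbm (X := X.vr.X) D N (fun y => f (MQ.par y)) x := by
  obtain ⟨z, rfl⟩ := MF.onto x
  obtain ⟨σ, h1, h2, h3⟩ := ex_lift hn hU z
  have e1 : γ (f z.1.1) = z.1.1 := e
  have h4 : σ (γ (f z.1.1)) = z := (congrArg σ e1).trans h1
  have k2 : AnalyticAt ℂ (fun w => epM (σ w)) (γ (f z.1.1)) := by rwa [e1]
  have k3 : ∀ᶠ w in 𝓝 (γ (f z.1.1)), (σ w).1.1 = w := by rwa [e1]
  have k4 : AnalyticAt ℂ f (MQ.par (σ (γ (f z.1.1))).pt) := by rwa [h4]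
  have h5 := Sbm.of_comp (Y := X.vr.X) (g := fun y => f (MQ.par y)) (f := fun s => (σ (γ s)).pt)
    (x := f z.1.1) (holA_iff.2 (AnV.hol ((AnV.pi fun j => (reg_par X j).hol _).cmp
      k4))) ((X.qv'.hol.at _).cmp (X.av'.holA (g := fun s => σ (γ s)) (anV_self
        (k2.fun_comp hγ))))
    ((sbm_id _).cng (by
      filter_upwards [e', hγ.continuousAt.eventually k3] with s l1 l2
      exact ((congrArg f l2).trans l1).symm))
  rwa [h4] at h5

theorem sbm_crd (hn : n ≠ 0) (hU : AdP U t) (j : J) (c : ℂ) (x : MQ g U t) :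
    Sbm (X := X.vr.X) D 1 (fun y (_ : Fin 1) => MQ.par y j - c) x := by
  classical
  exact sbm_par X hn hU x (f := fun w _ => w j - c) (γ := fun s => update x.par j (s 0 + c))
    (.pi fun _ => (an_coord _ _).fun_sub analyticAt_const) (.pi fun i => by
      simp only [update_apply]
      split_ifs
      exacts [(an_coord _ _).fun_add analyticAt_const, analyticAt_const]) (by simp)
    (.of_forall fun s => funext fun i => by simp [Subsingleton.elim i 0])

/-! ### base change -/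

section bc
variable {φ : (J' → ℂ) → J → ℂ} (hφ : ∀ w ∈ U', φ w ∈ U ∧ t (φ w) = t' w)

/-- base change on framed objects -/
def bcF (z : MF g U' t') : MF g U t :=
  ⟨(φ z.1.1, z.1.2), (hφ _ z.2.1).1, z.2.2.1, fun a => (hφ _ z.2.1).2.symm ▸ z.2.2.2 a⟩

/-- base change -/
def bcM : MQ g U' t' → MQ g U t := Quot.map (bcF hφ) fun _ _ h => ⟨congrArg φ h.1, h.2⟩

theorem bcM_map (s : Aut g n) (x : MQ g U' t') : bcM hφ (x.map s) = (bcM hφ x).map s := by
  obtain ⟨z, rfl⟩ := MF.onto x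
  rfl

theorem par_bcM (x : MQ g U' t') : (bcM hφ x).par = φ x.par := by
  obtain ⟨z, rfl⟩ := MF.onto x
  rfl

theorem alg_bcM (X' : BV a' D' (epM : MF g U' t' → _) MF.pt)
    (h : ∀ j, P275BC.Reg U' fun w => φ w j) : Alg X'.vr.cp X.vr.cp (bcM hφ) :=
  X'.map X (g := bcF hφ) (rc_epM (fun j => .of_rat (c := X'.vrE.cp) X'.parM fun z =>
    let ⟨P, Q, a, b⟩ := h j _ z.2.1
    ⟨P, Q, a, fun x => b _ x.2.1⟩) X'.tupM) fun _ => rfl

end bc

/-! ### the nilpotent fibre -/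

section nil
variable {w : J → ℂ} (hw : w ∈ U) (ht : ∀ a, t w a = zeta n d)

theorem mon_nk {k : ℕ} {R : Mx n} (h : R ∈ nk n k) :
    mon d R ∈ bor n ∧ ∀ a, mon d R a a = zeta n d :=
  have h1 := ex_tri (nk_bor h) (-(2 * π * Complex.I))
  ⟨(bor n).smul_mem h1.1 _, fun a =>
    (congrArg (zeta n d * ·) (h1.2 a)).trans (by simp [h.1 a a le_rfl])⟩

/-- the inclusion of the nilpotent fibre on framed objects -/
def nlF (p : BFr g d (nk n 0)) : MF g U t :=
  ⟨(w, p.1.2), hw, p.2.2.2.symm ▸ (mon_nk p.2.1).1, fun a => by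
    rw [p.2.2.2, (mon_nk p.2.1).2, ht]⟩

theorem nrt0 : NRt (fun _ : Fin n => 0) fun _ : Fin n => 0 := fun _ _ k h e =>
  h (by exact_mod_cast (by simpa using e.symm : (k : ℂ) = 0))

theorem zeta_ne : zeta n d ≠ 0 := Complex.exp_ne_zero _

theorem res_eq {k : ℕ} (p : BFr g d (nk n k)) :
    p.1.1 = Lg (fun _ : Fin n => 0) ((zeta n d)⁻¹ • wv p.1.2 (cwd g)) := by
  rw [p.2.2.2, mon_eq, inv_smul_smul₀ zeta_ne]
  have := Lg_ex_tri (nk_bor p.2.1)
  simp only [p.2.1.1 _ _ le_rfl] at this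
  exact (this nrt0).symm

theorem rl_of_cj {k : ℕ} {p p' : BFr g d (nk n k)} {h : Mx n} (b : h.det ≠ 0)
    (c : Cj h p.1.2 p'.1.2) : p'.1.1 = h⁻¹ * p.1.1 * h := by
  rw [res_eq p, res_eq p', Matrix.mul_assoc, Lg_semi _ (ν := (zeta n d)⁻¹ • wv p'.1.2 (cwd g))
    (by rw [Matrix.smul_mul, P275RL.cj_semi c b, Matrix.mul_smul]),
    nonsing_inv_mul_cancel_left _ _ b.isUnit]

/-- the inclusion of the nilpotent fibre -/
def nlM : Bet g d (tauZ n 0) → MQ g U t :=
  Quot.map (nlF hw ht) fun _ _ ⟨h, a, b, _, c⟩ => ⟨rfl, h, a, b, c⟩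

theorem nlM_map (s : Aut g n) (x) : nlM hw ht (P275B.map _ s x) = (nlM hw ht x).map s := by
  obtain ⟨z, rfl⟩ := P275B.pt_onto x
  rfl

theorem nlM_inj : Injective (nlM (g := g) hw ht) :=
  Quot.ind fun _ => Quot.ind fun _ e =>
    let ⟨_, h, a, b, c⟩ := MF.pt_iff.1 e
    Quot.sound ⟨h, a, b, rl_of_cj b c, c⟩

variable [Ok g n d]

theorem mem_nlF {z : MF g U t} : z ∈ range (nlF hw ht) ↔ z.1.1 = w := by
  refine ⟨by rintro ⟨p, rfl⟩; rfl, fun e => ?_⟩
  obtain ⟨h1, h2, h3⟩ := Lg_tri nrt0 ((bor n).smul_mem z.2.2.1 (zeta n d)⁻¹) fun a => by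
    simp [z.2.2.2, e, ht, ta, zeta_ne]
  have h4 : Lg _ _ ∈ nk n 0 := ⟨fun a b l => l.eq_or_lt.elim (fun e => e ▸ h2 b) fun l => h1 l,
    fun _ l => absurd l (Nat.not_lt_zero _)⟩
  exact ⟨⟨(_, z.1.2), h4, gen_nk (g := g) h4, (smul_inv_smul₀ zeta_ne _).symm.trans
    (congrArg (zeta n d • ·) h3.symm)⟩,
    Subtype.ext (Prod.ext e.symm rfl)⟩

theorem range_nlM : range (nlM (g := g) hw ht) = {x | x.par = w} := by
  refine Subset.antisymm (range_subset_iff.2 (Quot.ind fun _ => rfl)) (Quot.ind fun z e => ?_)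
  obtain ⟨p, rfl⟩ := (mem_nlF hw ht).2 e
  exact ⟨p.pt _, rfl⟩

variable (Y : BN g 0 d (le_refl (bor n)) a' D')

theorem alg_nlM : Alg Y.vr.cp X.vr.cp (nlM hw ht) :=
  Y.map X (g := nlF hw ht) (rc_epM (fun _ => s_const _ _) Y.rgN.tup) fun _ => rfl

include X Y in
theorem cemb_nlM : IsClosedEmbedding (nlM (g := g) hw ht) := by
  have h1 : Continuous fun z : MF g U t => z.1 := continuous_subtype_val
  have h2 : IsEmbedding fun p : BFr g d (nk n 0) => p.1 := IsEmbedding.subtypeVal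
  refine cemb_quot (g := (nlF hw ht : BFr g d (nk n 0) → _)) Y.quo X.quo ⟨.of_comp
    (g := fun z : MF g U t => (Lg (fun _ : Fin n => 0) ((zeta n d)⁻¹ • wv z.1.2 (cwd g)), z.1.2))
    (continuous_induced_rng.2 (continuous_const.prodMk h2.continuous.snd)) (.prodMk ?_ h1.snd)
    (by convert h2 using 1; exact funext fun p => Prod.ext (res_eq p).symm rfl), ?_⟩
    (fun _ => rfl) (nlM_inj hw ht) fun z x e => (mem_nlF hw ht).2 ((range_nlM hw ht).le ⟨x, e.symm⟩)
  · simp only [Lg_eq]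
    exact (Polynomial.continuous_aeval _).comp
      (((P275RL.wv_cont (cwd g)).comp h1.snd).const_smul (zeta n d)⁻¹)
  · rw [show range (nlF hw ht) = {z : MF g U t | z.1.1 = w} from Set.ext fun _ => mem_nlF hw ht]
    exact isClosed_eq h1.fst continuous_const

end nil

end Vale.Agent.P275BW
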