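import Vale.Agent.P275BW.Wk

/-!
# P275, families over an open set of eigenvalue parameters
-/

open scoped Manifold ContDiff
open Set Filter Topology Function Matrix Module Sum
open P275BC (Ix mu UT Gnc)
open P275QV Vale.Agent.P275OM
open Vale.Agent.P275Z hiding mu
open Vale.Agent.P281Z Vale.Agent.P275RG
open Vale.Agent.P275ST (dimR)
open Vale.Agent.P275XB (Ok ix mu_ix dimZ)
open Vale.Agent.P275RH (cwd)
open Vale.Agent.P275B (Vr ap wv_ap cj_ap)

set_option linter.unusedSectionVars false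

noncomputable section

namespace Vale.Agent.P275BW

variable {n g D : ℕ} {J : Type} [Fintype J] {U : Set (J → ℂ)} {t : (J → ℂ) → Fin n → ℂ}

variable (g U t) in
/-- tuples whose local monodromy is triangular with the diagonal `t w` -/
def MF : Type := {z : (J → ℂ) × Tup g n //
  z.1 ∈ U ∧ wv z.2 (cwd g) ∈ bor n ∧ ∀ a, wv z.2 (cwd g) a a = t z.1 a}

instance : TopologicalSpace (MF g U t) := inferInstanceAs (TopologicalSpace (Subtype _))

/-- change of the frame -/
def MF.Rl (z z' : MF g U t) : Prop :=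
  z'.1.1 = z.1.1 ∧ ∃ h ∈ bor n, h.det ≠ 0 ∧ Cj h z.1.2 z'.1.2

variable (g U t) in
/-- the family of moduli spaces -/
def MQ : Type := Quot (MF.Rl (g := g) (U := U) (t := t))

instance : TopologicalSpace (MQ g U t) := inferInstanceAs (TopologicalSpace (Quot _))

/-- the point of a framed object -/
def MF.pt (z : MF g U t) : MQ g U t := Quot.mk _ z

theorem MF.pt_iff {z z' : MF g U t} : z.pt = z'.pt ↔ z.Rl z' :=
  Quot.eq.trans (Equivalence.eqvGen_iff ⟨fun _ => ⟨rfl, 1, one_mem _, by simp, P275RL.cj_one.2 rfl⟩,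
    fun ⟨e, h, a, b, c⟩ => ⟨e.symm, _, inv_mem_bor a b, det_inv_ne b, P275RL.cj_symm c b⟩,
    fun ⟨e, h, a, b, c⟩ ⟨e', h', a', b', c'⟩ => ⟨e'.trans e, h * h', mul_mem a a',
      by rw [det_mul]; exact mul_ne_zero b b', P275RL.cj_trans c c'⟩⟩)

theorem MF.onto : Surjective (MF.pt : MF g U t → _) := Quot.mk_surjective

/-- the parameter -/
def MQ.par : MQ g U t → J → ℂ := Quot.lift (fun z => z.1.1) fun _ _ h => h.1.symm

/-- the change of the marking -/
def MF.ap (s : Aut g n) (z : MF g U t) : MF g U t := ⟨(z.1.1, P275B.ap s z.1.2), by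
  rw [wv_ap]; exact z.2⟩

/-- the change of the marking -/
def MQ.map (s : Aut g n) : MQ g U t → MQ g U t :=
  Quot.map (MF.ap s) fun _ _ ⟨e, h, a, b, c⟩ => ⟨e, h, a, b, cj_ap s b c⟩

/-- the coordinates -/
def epM (z : MF g U t) : KB n J ⊕ Ix n g → ℂ :=
  Sum.elim (Sum.elim (fun p => wv z.1.2 (cwd g) p.1 p.2) z.1.1) (ix fun s => (z.1.2 s).1)

theorem epM_emb : IsEmbedding (epM : MF g U t → _) := by
  have h1 : IsEmbedding fun z : MF g U t => (z.1.1, fun s => (z.1.2 s).1) :=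
    (IsEmbedding.id.prodMap (.piMap fun _ => .subtypeVal)).comp
      (IsEmbedding.subtypeVal (X := (J → ℂ) × Tup g n))
  refine IsEmbedding.of_comp (g := fun y => (fun j => y (inl (inr j)), fun s : Fin g × Bool =>
    P275BC.mt (y ∘ inr) s.1 s.2)) (continuous_pi ?_)
    (.prodMk (continuous_pi fun _ => continuous_apply _) (continuous_pi fun s =>
      continuous_matrix fun a b => continuous_apply (inr (s.1, s.2, a, b)))) h1
  rintro ((i | i) | i)
  exacts [((P275RL.wv_cont _).comp continuous_subtype_val.snd).matrix_elem _ _,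
    (continuous_apply i).comp h1.continuous.fst,
    ((continuous_apply _).comp h1.continuous.snd).matrix_elem _ _]

variable (U t) in
/-- the parameters -/
def SM : Set (KB n J → ℂ) := {p | p ∘ inr ∈ U ∧ UT (rs p) ∧ ∀ a, rs p a a = t (p ∘ inr) a}

theorem wv_mu (ρ : Tup g n) : wv ρ (cwd g) = mu (ix fun s => (ρ s).1) :=
  (P275NB.wv_cwd _).trans (mu_ix _).symm

theorem range_epM : range (epM : MF g U t → _) = RF g (SM U t) rs := by
  refine Subset.antisymm (range_subset_iff.2 fun z => ⟨⟨z.2.1, mem_bor.1 z.2.2.1, z.2.2.2⟩,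
    fun k e => (z.1.2 (k, e)).2, (wv_mu _).symm⟩) fun y hy => ?_
  have e : wv (fun s => ⟨_, hy.2.1 s.1 s.2⟩) (cwd g) = rs (y ∘ inl) := (wv_mu _).trans hy.2.2
  refine ⟨⟨(y ∘ inl ∘ inr, fun s => ⟨_, hy.2.1 s.1 s.2⟩), hy.1.1, mem_of_eq_of_mem e
    (mem_bor.2 hy.1.2.1), fun a => (congrFun (congrFun e a) a).trans (hy.1.2.2 a)⟩, funext ?_⟩
  rintro ((i | i) | i)
  exacts [congrFun (congrFun e _) _, rfl, rfl]

/-- admissible parameters -/
structure AdP (U : Set (J → ℂ)) (t : (J → ℂ) → Fin n → ℂ) : Prop where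
  opn : IsOpen U
  lz : LZ U
  reg : ∀ a, P275BC.Reg U fun w => t w a
  gen : ∀ w ∈ U, Gnc (t w)

theorem AdP.lz' (h : AdP U t) : LZ (SM U t) := by
  convert ((LZ.univ.pre h.lz (F := fun p : KB n J → ℂ => p ∘ inr) fun _ => .coord _).eqs
    (J := {q : Fin n × Fin n // q.2 < q.1}) (fun q => .coord (inl q.1)) fun _ => .const 0).eqs
    (fun a => .coord (inl (a, a))) fun a => (h.reg a).comp (F := fun p => p ∘ inr)
      (fun _ => .coord _) fun _ l => l.1.2 using 1
  ext p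
  simp [SM, UT, rs, and_assoc]

theorem AdP.par (h : AdP U t) {p : KB n J → ℂ} (hp : p ∈ SM U t) :
    Par (nr n + Fintype.card J) (SM U t) p := by
  let f : ℂ → (KB n J → ℂ) → KB n J → ℂ := fun c y =>
    y + Sum.elim (fun q => c * diagonal (t (y ∘ inr)) q.1 q.2) 0
  have f1 : ∀ c y, f c y ∘ inr = y ∘ inr := fun c y => funext fun j => add_zero _
  have f2 : ∀ c c' y, f c (f c' y) = f (c + c') y := fun c c' y => funext fun i => by
    rcases i with i | i
    · simp only [f, Pi.add_apply, elim_inl, show (y + _) ∘ inr = _ from f1 c' y]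
      ring
    · simp [f]
  have f3 : ∀ y, f 0 y = y := fun y => funext fun i => by rcases i with i | i <;> simp [f]
  have f4 : ∀ c S, (∀ y ∈ S, y ∘ inr ∈ U) → ∀ i, P275BC.Reg S fun y => f c y i := fun c S l i => by
    refine (P275BC.Reg.coord i).add ?_
    rcases i with i | i
    · simp only [elim_inl, diagonal_apply]
      split_ifs
      exacts [(P275BC.Reg.const c).mul ((h.reg _).comp (fun _ => .coord _) l), .const _]
    · exact .const 0
  have f5 : ∀ c y a b, rs (f c y) a b = rs y a b + c * diagonal (t (y ∘ inr)) a b :=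
    fun _ _ _ _ => rfl
  have f6 : ∀ y ∈ SM U t, f (-1) y ∈ SB 0 ((· ∘ inr) ⁻¹' U) := fun y l =>
    ⟨⟨fun a b e => (f5 _ _ a b).trans (by
      rcases e.eq_or_lt with rfl | e
      · simp [l.2.2]
      · simp [l.2.1 _ _ e, e.ne']), fun _ e => absurd e (Nat.not_lt_zero _)⟩,
      mem_of_eq_of_mem (s := U) (f1 _ _) l.1⟩
  have := (par_open (h.opn.preimage (by fun_prop)) (f6 p hp)).reg (T := SM U t) (f := f 1)
    (g := f (-1)) (f4 _ _ fun _ l => l.2) (f4 _ _ fun _ l => l.1) (fun y l =>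
      ⟨mem_of_eq_of_mem (f1 _ _) l.2, fun a b e => by
        simp [f5, e.ne', (mem_nkJ.1 l.1).1 a b e.le], fun a => by
        simp [f5, f1, (mem_nkJ.1 l.1).1 a a le_rfl]⟩) f6
    (fun y _ => by simp [f2, f3]) fun y _ => by simp [f2, f3]
  rwa [f2, add_neg_cancel, f3, ← add_zero (finrank _ _), finrank_nkJ (Nat.zero_le _)] at this

theorem bvM {d : ℤ} [h : Ok g n d] (hU : AdP U t)
    (hD : D = 2 * dimR g n + 2 * nr n + Fintype.card J) :
    Nonempty (BV (nr n + Fintype.card J + dimZ g n) D (epM : MF g U t → _) MF.pt) := by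
  obtain ⟨-, σ, h1, h0, h2, h3⟩ := adm_bor h.hn
  have h4 := dimZ_eq (h := h)
  obtain ⟨r, rfl⟩ := Nat.exists_eq_add_one_of_ne_zero h.hn
  have e : ∀ a, Gp (Wσ σ) a → ∀ p : KB (r + 1) J → ℂ, aB 0 a a⁻¹ p ∘ inr = p ∘ inr :=
    fun a l p => funext fun j => (aB_inr (gp_Wσ.1 l).1 l.2 _ _ j).trans (by simp [ch_zero])
  refine (fam h1 (act_aB σ 0) hU.lz' (fun _ => hU.par) (fun _ _ => pl_crd _)
    (fun a l p hp => ⟨⟨(e a l p).symm ▸ hp.1, ?_, fun b => ?_⟩, rfl⟩)
    (fun p hp => ⟨hp.2.1, (funext hp.2.2).symm ▸ hU.gen _ hp.1⟩) ?_).bv epM_emb.isInducing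
    epM_emb.injective range_epM (by omega) isQuotientMap_quot_mk fun z z' => MF.pt_iff.trans
      ⟨fun ⟨e0, a, b, c, k⟩ => ?_, fun ⟨a, l, k⟩ => ⟨?_, a⁻¹, h2 _ (ginv_Wσ _ l), det_inv_ne l.2,
        fun s => ?_⟩⟩
  · exact ((gp_Wσ.1 l).1.mul hp.2.1).mul (ut_inv (gp_Wσ.1 l).1 l.2)
  · rw [e a l]
    exact (diag_conj (h2 a l) l.2 (mem_bor.2 hp.2.1) b).trans (hp.2.2 b)
  · obtain ⟨g, rfl⟩ := Nat.exists_eq_add_one_of_ne_zero h.hg
    rw [dimZ, dimR, show (r + 1) * (r + 1) - 1 = r * (r + 2) from Nat.sub_eq_of_eq_add (by ring),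
      show (r + 1) ^ 2 - 1 = r * (r + 2) from Nat.sub_eq_of_eq_add (by ring), Nat.add_sub_cancel]
    ring
  · obtain ⟨s, l, l'⟩ := h3 a b c
    have k' := (P275RL.cj_smul l c).2 k
    refine ⟨_, ginv_Wσ _ l', funext ?_⟩
    rw [nonsing_inv_nonsing_inv _ l'.unit]
    rintro ((i | i) | i)
    exacts [congrFun (congrFun (P275RL.cj_wv k' l'.2 _) _) _, by simp [cA, aB, epM, e0],
      congrFun (congrFun (k' _) _) _]
  · exact funext fun j => (congrFun k (inl (inr j))).trans (congrFun (e a l _) j)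
  · rw [nonsing_inv_nonsing_inv _ l.unit]
    exact Matrix.ext fun b c => congrFun k (inr (s.1, s.2, b, c))

variable {a : ℕ} (X : BV a D (epM : MF g U t → _) MF.pt)

theorem BV.tupM (s) : MS (RcS X.vrE) fun z : MF g U t => (z.1.2 s).1 :=
  fun a b => X.crd (inr (s.1, s.2, a, b))

theorem BV.parM (j : J) : (fun z : MF g U t => z.1.1 j) ∈ RcS X.vrE := X.crd (inl (inr j))

theorem rc_epM {Y : Type} {S : Subalgebra ℂ (Y → ℂ)} {z : Y → MF g U t}
    (h1 : ∀ j, (fun y => (z y).1.1 j) ∈ S) (h2 : ∀ s, MS S fun y => ((z y).1.2 s).1) :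
    ∀ i, (fun y => epM (z y) i) ∈ S := by
  rintro ((i | i) | i)
  exacts [ms_wv h2 _ _ _, h1 i, h2 _ _ _]

theorem reg_par (j : J) : Reg X.vr.cp fun x => MQ.par x j := X.reg (X.parM j)

theorem alg_mapM (s : Aut g n) : Alg X.vr.cp X.vr.cp (MQ.map s) :=
  X.map X (g := MF.ap s) (rc_epM X.parM fun _ => MS.smul (s_const _ _) (ms_wv X.tupM _))
    fun _ => rfl

end Vale.Agent.P275BW
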