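import Vale.Agent.P275BW.Bo
import Vale.Agent.P275QV.Mu
import Vale.Agent.P275GQ.Geo

/-!
# P275, smoothness in families, locally closed sets, the master theorem
-/

open scoped Manifold ContDiff
open Set Filter Topology Function Matrix Module
open P275BC hiding mt
open P275BC.HG P275QV Vale.Agent.P275OM
open Vale.Agent.P272.K (Cm)
open Vale.Agent.P275RG (Cp Alg)

set_option linter.unusedSectionVars false

noncomputable section

namespace Vale.Agent.P275BW

section fib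
variable {E₁ E₂ F : Type} [NormedAddCommGroup E₁] [NormedSpace ℂ E₁] [FiniteDimensional ℂ E₁]
  [NormedAddCommGroup E₂] [NormedSpace ℂ E₂] [FiniteDimensional ℂ E₂] [NormedAddCommGroup F]
  [NormedSpace ℂ F] [FiniteDimensional ℂ F]

theorem eqn_fib {S : Set E₁} {e d : ℕ} {p : E₁} {x : E₂} (h : Eqn e S p) {Φ : E₂ → F}
    (h1 : AnalyticAt ℂ Φ x) (h2 : Surjective (fderiv ℂ Φ x)) {V : E₁ → F} (h3 : AnalyticAt ℂ V p)
    (hd : d + finrank ℂ F = e + finrank ℂ E₂) :
    Eqn d {y : E₁ × E₂ | y.1 ∈ S ∧ Φ y.2 = V y.1} (p, x) := by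
  obtain ⟨c, h, k1, k2, k3, k4⟩ := h
  have a1 : AnalyticAt ℂ (fun y : E₁ × E₂ => h y.1) (p, x) := k2.fun_comp (f := Prod.fst) analyticAt_fst
  have a2 : AnalyticAt ℂ (fun y : E₁ × E₂ => Φ y.2) (p, x) := h1.fun_comp (f := Prod.snd) analyticAt_snd
  have a3 : AnalyticAt ℂ (fun y : E₁ × E₂ => V y.1) (p, x) := h3.fun_comp (f := Prod.fst) analyticAt_fst
  refine Eqn.of_target (h := fun y => (h y.1, Φ y.2 - V y.1)) (by simp; omega)
    (a1.prod (a2.fun_sub a3)) (fun w => ?_) ?_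
  · obtain ⟨u, hu⟩ := k3 w.1
    obtain ⟨v, hv⟩ := h2 (w.2 + fderiv ℂ V p u)
    refine ⟨(u, v), ?_⟩
    have H := (HasFDerivAt.comp (f := Prod.fst) (p, x) k2.differentiableAt.hasFDerivAt
      hasFDerivAt_fst).prodMk ((HasFDerivAt.comp (f := Prod.snd) (p, x)
        h1.differentiableAt.hasFDerivAt hasFDerivAt_snd).fun_sub (HasFDerivAt.comp (f := Prod.fst)
        (p, x) h3.differentiableAt.hasFDerivAt hasFDerivAt_fst))
    rw [HasFDerivAt.fderiv (f := fun y : E₁ × E₂ => (h y.1, Φ y.2 - V y.1)) H]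
    simp [hu, hv]
  · filter_upwards [(continuousAt_fst (p := (p, x))).eventually k4] with y hy
    simp [hy, sub_eq_zero]

theorem par_sub (q : Submodule ℂ E₁) {p : E₁} (hp : p ∈ q) : Par (finrank ℂ q) (q : Set E₁) p := by
  obtain ⟨pr, hpr⟩ := q.subtype.exists_leftInverse_of_injective q.ker_subtype
  have e : ∀ w : q, pr w = w := LinearMap.congr_fun hpr
  exact Par.of_model (φ := q.subtypeL) (ψ := LinearMap.toContinuousLinearMap pr) rfl
    (ContinuousLinearMap.analyticAt _ _) (ContinuousLinearMap.analyticAt _ _)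
    (congrArg Subtype.val (e ⟨p, hp⟩)) (.of_forall fun z => ⟨z.2, e z⟩)
    (.of_forall fun y hy => congrArg Subtype.val (e ⟨y, hy⟩))

theorem Par.lin {S : Set E₁} {d : ℕ} {p : E₁} (h : Par d S p) (L : E₁ ≃ₗ[ℂ] E₂) :
    Par d (L.symm ⁻¹' S) (L p) :=
  h.map (f := L) (g := L.symm) (L.toContinuousLinearEquiv.analyticAt _)
    (L.symm.toContinuousLinearEquiv.analyticAt _) (.of_forall fun y hy => by simpa using hy)
    (.of_forall fun y hy => ⟨hy, by simp⟩)

end fib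

variable {n g : ℕ} {ι κ : Type}

/-- prescribed entries of `mu` and the determinants -/
def Phi (P : Fin n × Fin n → Prop) (y : Ix n g → ℂ) : ({p // P p} → ℂ) × (Fin g × Bool → ℂ) :=
  (fun p => mu y p.1.2 p.1.1, fun p => (P275BC.mt y p.1 p.2).det)

theorem subm (hn : 0 < n) (P : Fin n × Fin n → Prop) [DecidablePred P] {x : Ix n g → ℂ}
    (hx : ∀ k e, (P275BC.mt x k e).det = 1) (hi : x ∈ Irr n g)
    (hP : ∀ (L : Mx n) (c : ℂ), (∀ a b, ¬ P (a, b) → L a b = 0) → mu x * L = c • 1 → L = 0) :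
    AnalyticAt ℂ (Phi P) x ∧ Surjective (fderiv ℂ (Phi P) x) := by
  have h0 : ∀ k e, (P275BC.mt x k e).det ≠ 0 := fun k e => hx k e ▸ one_ne_zero
  have an := (mu_der h0 0).1
  have an1 : AnalyticAt ℂ (fun y (p : {p // P p}) => mu y p.1.2 p.1.1) x :=
    AnalyticAt.pi fun p => an _ _
  have an2 : AnalyticAt ℂ (fun y (p : Fin g × Bool) => (P275BC.mt y p.1 p.2).det) x :=
    AnalyticAt.pi fun p => (anM_mt x _ _).det
  have an3 : AnalyticAt ℂ (Phi P) x := an1.prod an2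
  have e1 : Surjective (fderiv ℂ (fun y (p : {p // P p}) => mu y p.1.2 p.1.1) x) := by
    refine surj_of_dual fun l hl => ?_
    let L : Mx n := Matrix.of fun a b => if h : P (a, b) then l ⟨_, h⟩ else 0
    have h1 : ∀ u, trace (dmu x u * (mu x * L)) = 0 := fun u => by
      rw [← Matrix.mul_assoc, ← (mu_der h0 u).2, ← hl u, (hasFDerivAt_pi.2 fun p : {p // P p} =>
        (an p.1.2 p.1.1).differentiableAt.hasFDerivAt).fderiv, trace_mul_comm]
      simp only [trace, diag, mul_apply, ← Finset.sum_product', Finset.univ_product_univ]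
      rw [← Fintype.sum_subtype_add_sum_subtype P, Finset.sum_eq_zero (s := Finset.univ)
        (f := fun p : {p // ¬ P p} => _) fun p _ => by simp [L, p.2], add_zero]
      exact Finset.sum_congr rfl fun p _ => by simp [L, p.2, dM, mul_comm]
    obtain ⟨c, hc⟩ := schur hn hi (mu x * L) (comm_of_Ce h0 fun k e =>
      sub_eq_zero.1 (eq_zero_of_tr fun ζ => by
        obtain ⟨N, rfl⟩ := exists_sg h0 k e ζ
        rw [← h1 (sg k e N), (om_sg x 0 k e N rfl).1, Matrix.mul_sub, Matrix.sub_mul, trace_sub,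
          trace_sub, tr_ad_ad]))
    have := hP L c (fun a b h => dif_neg h) hc
    exact funext fun p => (dif_pos p.2).symm.trans (congrFun (congrFun this p.1.1) p.1.2)
  have e2 : ∀ w, ∃ u, fderiv ℂ (Phi P) x u = (0, w) := fun w => by
    have hw : ∀ p, HasDerivAt (fun s : ℂ => 1 + s * (w p / n)) (w p / n) 0 := fun p => by
      simpa using ((hasDerivAt_id (0 : ℂ)).mul_const (w p / n)).const_add 1
    have d1 : DifferentiableAt ℂ
        (fun (s : ℂ) (i : Ix n g) => (1 + s * (w (i.1, i.2.1) / n)) * x i) 0 :=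
      differentiableAt_pi.2 fun i => (hw _).differentiableAt.mul_const _
    have z : (fun i : Ix n g => (1 + 0 * (w (i.1, i.2.1) / n)) * x i) = x := by simp
    refine ⟨_, (HasFDerivAt.comp_hasDerivAt_of_eq 0 an3.differentiableAt.hasFDerivAt
      d1.hasDerivAt z.symm).unique (HasDerivAt.prodMk ?_ (hasDerivAt_pi.2 fun p => ?_))⟩
    · refine (hasDerivAt_const (0 : ℂ) (Phi P x).1).congr_of_eventuallyEq ?_
      filter_upwards [eventually_all.2 fun p =>
        (hw p).continuousAt.eventually_ne (y := 0) (by simp)] with s hs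
      simp only [Phi, mu_scale h0 hs]
    · have : ∀ s : ℂ, (P275BC.mt (fun i : Ix n g => (1 + s * (w (i.1, i.2.1) / n)) * x i) p.1 p.2).det =
          (1 + s * (w p / n)) ^ n := fun s => by
        rw [show P275BC.mt _ p.1 p.2 = (1 + s * (w p / n)) • P275BC.mt x p.1 p.2 from rfl, det_smul,
          hx]
        simp
      simp only [this]
      refine ((hw p).fun_pow n).congr_deriv ?_
      have : (n : ℂ) ≠ 0 := Nat.cast_ne_zero.2 hn.ne'
      simp [mul_div_cancel₀, this]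
  refine ⟨an3, fun w => ?_⟩
  obtain ⟨u, hu⟩ := e1 w.1
  obtain ⟨v, hv⟩ := e2 (w.2 - (fderiv ℂ (Phi P) x u).2)
  refine ⟨u + v, ?_⟩
  rw [map_add, hv]
  refine Prod.ext ?_ (by simp)
  rw [← hu, show Phi P = fun y => (_, _) from rfl,
    an1.differentiableAt.fderiv_prodMk an2.differentiableAt]
  simp

/-- prescribed entries of `mu` in a family -/
theorem par_fam [Fintype κ] (hn : 0 < n) (P : Fin n × Fin n → Prop) [DecidablePred P]
    {S : Set (κ → ℂ)} {e d : ℕ} {v : (κ → ℂ) → Mx n} {y : κ ⊕ Ix n g → ℂ}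
    (hS : Par e S (y ∘ Sum.inl)) (hv : AnM v (y ∘ Sum.inl))
    (hx : ∀ k e, (P275BC.mt (y ∘ Sum.inr) k e).det = 1) (hi : y ∘ Sum.inr ∈ Irr n g)
    (hP : ∀ (L : Mx n) (c : ℂ), (∀ a b, ¬ P (a, b) → L a b = 0) →
      mu (y ∘ Sum.inr) * L = c • 1 → L = 0)
    (hd : d + 2 * g + Fintype.card {p // P p} = e + 2 * g * n ^ 2)
    (he : ∀ a b, P (a, b) → mu (y ∘ Sum.inr) b a = v (y ∘ Sum.inl) b a) :
    Par d {y : κ ⊕ Ix n g → ℂ | y ∘ Sum.inl ∈ S ∧ (∀ k e, (P275BC.mt (y ∘ Sum.inr) k e).det = 1) ∧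
      ∀ a b, P (a, b) → mu (y ∘ Sum.inr) b a = v (y ∘ Sum.inl) b a} y := by
  obtain ⟨h1, h2⟩ := subm hn P hx hi hP
  have h3 := (eqn_fib (d := d) hS.eqn h1 h2
    (V := fun p => (fun q : {p // P p} => v p q.1.2 q.1.1, fun _ => 1))
    ((AnalyticAt.pi fun q => hv _ _).prod analyticAt_const) (by simp; linarith)).par
    ⟨hS.mem, Prod.ext (funext fun q => he _ _ q.2) (funext fun q => hx _ _)⟩
  convert Par.lin h3 (LinearEquiv.sumArrowLequivProdArrow κ (Ix n g) ℂ ℂ).symm using 1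
  · ext z
    simp only [mem_ofPred_eq, LinearEquiv.symm_symm, mem_preimage, Phi, Prod.mk.injEq, funext_iff,
      Subtype.forall, Prod.forall]
    exact and_congr Iff.rfl and_comm
  · funext i
    rcases i with i | i <;> rfl

/-- regular functions -/
def RgS (S : Set (ι → ℂ)) : Subalgebra ℂ ((ι → ℂ) → ℂ) where
  carrier := {f | Reg S f}
  mul_mem' := fun h k => Reg.mul h k
  add_mem' := fun h k => Reg.add h k
  algebraMap_mem' := fun c => Reg.const c

/-- Zariski locally closed sets -/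
def LZ (S : Set (ι → ℂ)) : Prop := ∃ A B, ZC A ∧ ZC B ∧ S = A \ B

namespace LZ
variable {S T : Set (ι → ℂ)} {f : (ι → ℂ) → ℂ}

theorem univ : LZ (univ : Set (ι → ℂ)) := ⟨_, _, ZC.univ, ZC.empty, by simp⟩

theorem inter (h : LZ S) (k : LZ T) : LZ (S ∩ T) := by
  obtain ⟨A, B, h1, h2, rfl⟩ := h
  obtain ⟨A', B', k1, k2, rfl⟩ := k
  exact ⟨_, _, h1.inter k1, h2.union k2, by ext; simp; tauto⟩

theorem eqs {J : Type} {f g : J → (ι → ℂ) → ℂ} (h : LZ S) (hf : ∀ j, Reg S (f j))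
    (hg : ∀ j, Reg S (g j)) : LZ {x ∈ S | ∀ j, f j x = g j x} := by
  choose C h1 h2 using fun j => ((hf j).sub (hg j)).zc
  convert h.inter ⟨_, _, ZC.iInter h1, ZC.empty, rfl⟩ using 1
  ext x
  simp +contextual [h2, sub_eq_zero]

theorem ex_ne {J : Type} {f : J → (ι → ℂ) → ℂ} (h : LZ S) (hf : ∀ j, Reg S (f j)) :
    LZ {x ∈ S | ∃ j, f j x ≠ 0} := by
  choose C h1 h2 using fun j => (hf j).zc
  convert h.inter ⟨_, _, ZC.univ, ZC.iInter h1, rfl⟩ using 1
  ext x
  simp +contextual [h2]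

theorem ne (h : LZ S) (hf : Reg S f) : LZ {x ∈ S | f x ≠ 0} := by
  simpa using h.ex_ne (J := Unit) fun _ => hf

theorem pre {T : Set (κ → ℂ)} (h : LZ S) (k : LZ T) {F : (ι → ℂ) → κ → ℂ}
    (hF : ∀ k, Reg S fun x => F x k) : LZ {x ∈ S | F x ∈ T} := by
  obtain ⟨A, B, h1, h2, rfl⟩ := k
  obtain ⟨A', k1, k2⟩ := h1.pre hF
  obtain ⟨B', k3, k4⟩ := h2.pre hF
  convert h.inter ⟨_, _, k1, k3, rfl⟩ using 1
  ext x
  exact and_congr_right fun hx => and_congr (k2 x hx).symm (not_congr (k4 x hx).symm)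

end LZ

theorem ms_list {Y α ν : Type} [Fintype ν] [DecidableEq ν] {S : Subalgebra ℂ (Y → ℂ)}
    {f : α → Y → Mq ν} (h : ∀ a, MS S (f a)) (l : List α) :
    MS S fun y => (l.map fun a => f a y).prod := by
  induction l with
  | nil => exact MS.const S 1
  | cons a l ih => simpa only [List.map_cons, List.prod_cons] using (h a).mul ih

theorem ms_mu {Y : Type} {S : Subalgebra ℂ (Y → ℂ)} {x : Y → Ix n g → ℂ}
    (h : ∀ i, (fun y => x y i) ∈ S) (h' : ∀ k e, (fun y => (P275BC.mt (x y) k e).det⁻¹) ∈ S) :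
    MS S fun y => mu (x y) := by
  have h1 : ∀ k e, MS S fun y => P275BC.mt (x y) k e := fun k e a b => h _
  simp only [mu, List.ofFn_eq_map]
  exact ms_list (fun k => (((h1 k _).mul (h1 k _)).mul ((h1 k _).inv (h' k _))).mul
    ((h1 k _).inv (h' k _))) _

/-- a quasi-affine variety with a quasi-projective quotient -/
structure BV (m d : ℕ) {E Q : Type} [TopologicalSpace E] [TopologicalSpace Q] [Fintype ι]
    (ε : E → ι → ℂ) (π : E → Q) : Type 1 where
  [cE : ChartedSpace (Cm m) E]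
  [mE : IsManifold 𝓘(ℂ, Cm m) ω E]
  [cQ : ChartedSpace (Cm d) Q]
  [mQ : IsManifold 𝓘(ℂ, Cm d) ω Q]
  pE : Cp m E
  pQ : Cp d Q
  av : AV m ε pE
  qv : QV m d pE pQ π

variable {E Q E' Q' ν : Type} [TopologicalSpace E] [TopologicalSpace Q] [TopologicalSpace E']
  [TopologicalSpace Q'] [Fintype ι] [Fintype κ] [Fintype ν] [DecidableEq ν] {m d m' d' : ℕ}
  {ε : E → ι → ℂ} {π : E → Q} {ε' : E' → κ → ℂ} {π' : E' → Q'}

/-- **Quotients by framed actions.** -/
theorem ex_bv {W : Submodule ℂ (Mq ν)} {A : Mq ν → Mq ν → (ι → ℂ) → ι → ℂ} {χ : Mq ν → ℂ}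
    (hA : Act W A) (hχ : ∀ h, Gp W h → χ h ≠ 0) (h1 : IsInducing ε) (h2 : Injective ε)
    (hL : LZ (range ε)) (hR : ∀ h, Gp W h → ∀ a, A h h⁻¹ (ε a) ∈ range ε)
    (hF : ∀ a, ∃ F b, F (ε a) ≠ 0 ∧ Frm W A χ F b) (hm : m = d + finrank ℂ W)
    (hp : ∀ a, Par m (range ε) (ε a)) (hq : IsQuotientMap π)
    (hπ : ∀ a b, π a = π b ↔ Ob W A (ε a) (ε b)) : Nonempty (BV m d ε π) := by
  obtain ⟨A', B, hA', hB, e⟩ := hL
  obtain ⟨_, _, c, hc⟩ := afv ι m E ε A' B h1 h2 hA' hB e hp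
  obtain ⟨κ, γ, _, _, f, z, y, k1, k2⟩ := pq_of (R := range ε) hA hχ
    (fun h k => forall_mem_range.2 (hR h k)) (forall_mem_range.2 hF)
  obtain ⟨_, _, c', hc'⟩ := geo ι κ γ m d E Q ε c π _ f z y A' B hc hA' hB e k1 hq hπ
    (k2 d (forall_mem_range.2 (hm ▸ hp)))
  exact ⟨⟨c, c', hc, hc'⟩⟩

theorem BV.algE (X : BV m d ε π) (X' : BV m' d' ε' π') {g : E → E'} {t : (ι → ℂ) → κ → ℂ}
    (ht : ∀ k, Reg (range ε) fun x => t x k) (e : ∀ a, ε' (g a) = t (ε a)) :
    @Alg m m' E E' _ X.cE _ X'.cE X.pE X'.pE g := by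
  let := X.cE; let := X'.cE; have := X.mE; have := X'.mE
  refine X'.av.alg fun k => ?_
  simp only [e]
  exact X.av.reg' (ht k) (Alg.id _) mem_range_self

/-- equivariant regular maps induce algebraic maps -/
theorem BV.alg (X : BV m d ε π) (X' : BV m' d' ε' π') {g : E → E'} {t : (ι → ℂ) → κ → ℂ}
    (ht : ∀ k, Reg (range ε) fun x => t x k) (e : ∀ a, ε' (g a) = t (ε a)) {G : Q → Q'}
    (e' : ∀ a, G (π a) = π' (g a)) : @Alg d d' Q Q' _ X.cQ _ X'.cQ X.pQ X'.pQ G := by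
  let := X.cE; let := X'.cE; have := X.mE; have := X'.mE
  let := X.cQ; let := X'.cQ; have := X.mQ; have := X'.mQ
  exact X.qv.map X'.qv (X.algE X' ht e) e'

end Vale.Agent.P275BW
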